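import Mathlib

/-!
# P040: twice triangular numbers and sums of positive parts
-/

open Finset

namespace P040.Cut

/-- twice the triangular number, zero for negative arguments -/
def tri2 (m : ℤ) : ℤ := if 0 < m then m * (m + 1) else 0

lemma tri2_of_nonneg {m : ℤ} (h : 0 ≤ m) : tri2 m = m * (m + 1) := by
  unfold tri2
  split_ifs with h'
  · rfl
  · obtain rfl : m = 0 := by omega
    simp

lemma tri2_of_nonpos {m : ℤ} (h : m ≤ 0) : tri2 m = 0 := by
  unfold tri2; rw [if_neg (by omega)]

lemma tri2_step (m : ℤ) : tri2 m - tri2 (m - 1) = 2 * max 0 m := by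
  rcases le_or_gt m 0 with h | h
  · rw [tri2_of_nonpos h, tri2_of_nonpos (by omega), max_eq_left h]; ring
  · rw [tri2_of_nonneg h.le, tri2_of_nonneg (by omega), max_eq_right h.le]; ring

lemma tri2_nonneg (m : ℤ) : 0 ≤ tri2 m := by
  rcases le_or_gt m 0 with h | h
  · rw [tri2_of_nonpos h]
  · rw [tri2_of_nonneg h.le]; nlinarith

lemma tri2_le (m : ℤ) : tri2 m ≤ m * (m + 1) := by
  rcases le_or_gt 0 m with h | h
  · rw [tri2_of_nonneg h]
  · rw [tri2_of_nonpos h.le]; nlinarith

lemma tri2_dual (m : ℤ) : tri2 (m - 1) + tri2 (-m) = m * (m - 1) := by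
  rcases le_or_gt m 0 with h | h
  · rw [tri2_of_nonpos (by omega : m - 1 ≤ 0), tri2_of_nonneg (by omega : 0 ≤ -m)]; ring
  · rw [tri2_of_nonpos (by omega : -m ≤ 0), tri2_of_nonneg (by omega : 0 ≤ m - 1)]; ring

lemma sum_pos_up (c : ℤ) : ∀ v : ℕ,
    2 * ∑ q ∈ range v, max 0 (c + (q : ℤ)) = tri2 (c + v - 1) - tri2 (c - 1) := by
  intro v
  induction v with
  | zero => simp
  | succ v ih =>
    rw [sum_range_succ, mul_add, ih]
    have h := tri2_step (c + v)
    rw [show c + ((v + 1 : ℕ) : ℤ) - 1 = c + v by push_cast; ring]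
    linarith

lemma sum_pos_down (c : ℤ) : ∀ v : ℕ,
    2 * ∑ q ∈ range v, max 0 (c - (q : ℤ)) = tri2 c - tri2 (c - v) := by
  intro v
  induction v with
  | zero => simp
  | succ v ih =>
    rw [sum_range_succ, mul_add, ih]
    have h := tri2_step (c - v)
    rw [show c - ((v + 1 : ℕ) : ℤ) = c - v - 1 by push_cast; ring]
    linarith

lemma two_mul_sum_range : ∀ v : ℕ, 2 * ∑ q ∈ range v, (q : ℤ) = (v : ℤ) * ((v : ℤ) - 1) := by
  intro v
  induction v with
  | zero => simp
  | succ v ih => rw [sum_range_succ, mul_add, ih]; push_cast; ring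

/-- number of integers of `[0,v)` in `[lo,hi)` -/
lemma sum_indicator (lo hi : ℤ) : ∀ v : ℕ,
    ∑ q ∈ range v, (if lo ≤ (q : ℤ) ∧ (q : ℤ) < hi then (1 : ℤ) else 0)
      = max 0 (min (v : ℤ) hi - max lo 0) := by
  intro v
  induction v with
  | zero =>
    simp only [range_zero, sum_empty]
    rw [max_eq_left]; omega
  | succ v ih =>
    rw [sum_range_succ, ih]
    push_cast
    split_ifs <;> omega

/-- a nonnegative integer as a sum of indicators -/
lemma pos_eq_sum (x : ℤ) : ∀ D : ℕ, x ≤ D →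
    max 0 x = ∑ d ∈ range D, (if (d : ℤ) + 1 ≤ x then (1 : ℤ) else 0) := by
  intro D
  induction D generalizing x with
  | zero => intro h; simp only [range_zero, sum_empty]; rw [max_eq_left]; simpa using h
  | succ D ih =>
    intro h
    rw [sum_range_succ']
    have h' := ih (x - 1) (by push_cast at h; omega)
    have e : ∑ d ∈ range D, (if ((d + 1 : ℕ) : ℤ) + 1 ≤ x then (1 : ℤ) else 0)
        = ∑ d ∈ range D, (if (d : ℤ) + 1 ≤ x - 1 then (1 : ℤ) else 0) := by
      refine sum_congr rfl fun d _ => ?_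
      push_cast
      split_ifs <;> omega
    rw [e, ← h']
    push_cast
    split_ifs <;> omega

end P040.Cut
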