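import Vale.Agent.P040.Cut.Parts

/-!
# P040: bookkeeping around the pair inequality
-/

open Finset

namespace P040.Cut

open P040.TwoBlock

/-- reflection of a sum over an interval of positions -/
lemma sum_reflect {M : Type*} [AddCommMonoid M] (k : ℕ) (f : ℕ → M) (a b : ℕ)
    (hb : b ≤ 2 * k + 1) :
    ∑ i ∈ Ico a b, f (2 * k - i) = ∑ i ∈ Ico (2 * k + 1 - b) (2 * k + 1 - a), f i :=
  sum_Ico_reflect f a (by omega)

lemma rev_rev (k : ℕ) (x : ℕ → Bool) (i : ℕ) (hi : i < 2 * k + 1) :
    rev k (rev k x) i = x i := by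
  unfold rev; congr 1; omega

lemma cnt_rev (k : ℕ) (x : ℕ → Bool) (a b : ℕ) (hb : b ≤ 2 * k + 1) :
    cnt (rev k x) a b = cnt x (2 * k + 1 - b) (2 * k + 1 - a) :=
  sum_reflect k (fun j => (x j).toNat) a b hb

lemma same_rev (k : ℕ) (x : ℕ → Bool) (c : Bool) (a b : ℕ) (hb : b ≤ 2 * k + 1) :
    same (rev k x) c a b = same x c (2 * k + 1 - b) (2 * k + 1 - a) :=
  sum_reflect k (fun j => (ind (c = x j) : ℤ)) a b hb

lemma cnt_le (x : ℕ → Bool) (a b : ℕ) : cnt x a b ≤ b - a := by
  calc cnt x a b ≤ ∑ _j ∈ Ico a b, 1 := sum_le_sum fun j _ => by cases x j <;> simp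
    _ = b - a := by simp

lemma proj_le (c : Bool) (w h u : ℕ) (hw : h ≤ w) : proj c w h u ≤ w := by
  unfold proj
  cases c <;> simp <;> omega

lemma count_le (k g : ℕ) (x : ℕ → Bool) (i : ℕ) (hi : i < 2 * k + 1) :
    count k g x i ≤ tent k i := by
  unfold count
  have h1 := cnt_le x 0 i
  have h2 := cnt_le x (i + 1) (2 * k + 1)
  split_ifs
  · simp only [tent]; omega
  · exact proj_le _ _ _ _ (min_le_right _ _)
  · simp only [tent]; omega
  · exact proj_le _ _ _ _ (min_le_right _ _)

lemma count_rev (k g : ℕ) (x : ℕ → Bool) (i : ℕ) (hg : g ≤ 2 * k + 1) (hi : i < 2 * k + 1) :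
    count k (2 * k + 1 - g) (rev k x) (2 * k - i) = count k g x i := by
  have et : tent k (2 * k - i) = tent k i := by unfold tent; omega
  have ex : rev k x (2 * k - i) = x i := by unfold rev; congr 1; omega
  have e1 : cnt (rev k x) 0 (2 * k - i) = cnt x (i + 1) (2 * k + 1) := by
    rw [cnt_rev k x _ _ (by omega)]
    congr 1 <;> omega
  have e2 : cnt (rev k x) (2 * k - i + 1) (2 * k + 1) = cnt x 0 i := by
    rw [cnt_rev k x _ _ le_rfl]
    congr 1 <;> omega
  unfold count
  rw [et, ex, e1, e2]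
  by_cases hgk : g ≤ k
  · rw [if_pos hgk, if_neg (show ¬ 2 * k + 1 - g ≤ k by omega)]
    by_cases hig : i < g
    · rw [if_pos hig, if_pos (show 2 * k + 1 - g ≤ 2 * k - i by omega)]
    · rw [if_neg hig, if_neg (show ¬ 2 * k + 1 - g ≤ 2 * k - i by omega)]
      congr 2 <;> omega
  · rw [if_neg hgk, if_pos (show 2 * k + 1 - g ≤ k by omega)]
    by_cases hig : g ≤ i
    · rw [if_pos hig, if_pos (show 2 * k - i < 2 * k + 1 - g by omega)]
    · rw [if_neg hig, if_neg (show ¬ 2 * k - i < 2 * k + 1 - g by omega)]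
      congr 2 <;> omega

lemma count_congr (k g : ℕ) (x y : ℕ → Bool) (h : ∀ j < 2 * k + 1, x j = y j) (i : ℕ)
    (hi : i < 2 * k + 1) : count k g x i = count k g y i := by
  have hc : ∀ a b, b ≤ 2 * k + 1 → cnt x a b = cnt y a b := fun a b hb =>
    sum_congr rfl fun j hj => by rw [h j (by rw [mem_Ico] at hj; omega)]
  unfold count
  rw [hc 0 i (by omega), hc (i + 1) _ le_rfl, h i hi]

lemma cz_rev (k g : ℕ) (x : ℕ → Bool) (i : ℕ) (hg : g ≤ 2 * k + 1) (hi : i < 2 * k + 1) :
    cz k (2 * k + 1 - g) (rev k x) (2 * k - i) = cz k g x i := by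
  unfold cz; rw [count_rev k g x i hg hi]

/-- the part left of both vertices, in the original coordinates -/
lemma leftPart_eq (k g h : ℕ) (x y : ℕ → Bool) (hgh : g ≤ h) (hh : h ≤ 2 * k + 1) :
    leftPart k g h x y
      = ∑ j ∈ range g, (same x (y j) 0 j + |cz k h y j - cz k g x j|) := by
  unfold leftPart rightPart
  rw [range_eq_Ico]
  have e : ∑ j ∈ Ico 0 g, (same x (y j) 0 j + |cz k h y j - cz k g x j|)
      = ∑ i ∈ Ico (2 * k + 1 - g) (2 * k + 1), (same x (y (2 * k - i)) 0 (2 * k - i)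
        + |cz k h y (2 * k - i) - cz k g x (2 * k - i)|) := by
    rw [sum_reflect k (fun j => same x (y j) 0 j + |cz k h y j - cz k g x j|) _ _ le_rfl]
    refine sum_congr ?_ fun _ _ => rfl
    congr 1 <;> omega
  rw [e]
  refine sum_congr rfl fun i hi => ?_
  rw [mem_Ico] at hi
  obtain ⟨j, hj, rfl⟩ : ∃ j, j < g ∧ i = 2 * k - j := ⟨2 * k - i, by omega, by omega⟩
  rw [show 2 * k - (2 * k - j) = j by omega, cz_rev k h y j hh (by omega),
    cz_rev k g x j (by omega) (by omega), same_rev k x _ _ _ le_rfl,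
    show rev k y (2 * k - j) = y j by unfold rev; congr 1; omega]
  congr 2 <;> omega

/-- same-page crossings, region by region -/
lemma linCount_eq (k g h : ℕ) (x y : ℕ → Bool) (hgh : g ≤ h) (hh : h ≤ 2 * k + 1) :
    (linCount (2 * k + 1) g h x y : ℤ)
      = (∑ i ∈ Ico g h, same y (x i) g i) + (∑ i ∈ Ico h (2 * k + 1), same y (x i) (i + 1) (2 * k + 1))
        + (∑ i ∈ Ico h (2 * k + 1), same y (x i) 0 g) + ∑ j ∈ range g, same x (y j) 0 j := by
  set n := 2 * k + 1 with hn
  set e : ℕ → ℕ → ℤ := fun i j => (ind (x i = y j) : ℤ) with he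
  have hterm : ∀ i j, (ind (x i = y j ∧ LinRel g h i j) : ℤ)
      = (if g ≤ j ∧ j < i ∧ i < h then e i j else 0) + (if h ≤ i ∧ i < j then e i j else 0)
        + (if h ≤ i ∧ j < g then e i j else 0) + (if i < j ∧ j < g then e i j else 0) := by
    intro i j
    by_cases hx : x i = y j
    · simp only [he, ind, hx, true_and, LinRel, if_true, Nat.cast_ite, Nat.cast_one,
        Nat.cast_zero]
      split_ifs <;> omega
    · simp [he, ind, hx]
  have lhs : (linCount n g h x y : ℤ)
      = (∑ i ∈ range n, ∑ j ∈ range n, if g ≤ j ∧ j < i ∧ i < h then e i j else 0)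
        + (∑ i ∈ range n, ∑ j ∈ range n, if h ≤ i ∧ i < j then e i j else 0)
        + (∑ i ∈ range n, ∑ j ∈ range n, if h ≤ i ∧ j < g then e i j else 0)
        + (∑ i ∈ range n, ∑ j ∈ range n, if i < j ∧ j < g then e i j else 0) := by
    unfold linCount
    push_cast
    simp only [hterm, sum_add_distrib]
  have cut : ∀ (F : ℕ → ℤ) (a b : ℕ), b ≤ n →
      (∑ i ∈ range n, if a ≤ i ∧ i < b then F i else 0) = ∑ i ∈ Ico a b, F i := by
    intro F a b hb
    rw [← sum_filter]
    refine sum_congr ?_ fun _ _ => rfl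
    ext i; simp; omega
  rw [lhs]
  refine congrArg₂ _ (congrArg₂ _ (congrArg₂ _ ?_ ?_) ?_) ?_
  · rw [← cut (fun i => same y (x i) g i) g h hh]
    refine sum_congr rfl fun i hi => ?_
    rw [mem_range] at hi
    by_cases hc : g ≤ i ∧ i < h
    · rw [if_pos hc, same, ← cut (fun j => (ind (x i = y j) : ℤ)) g i (by omega)]
      exact sum_congr rfl fun j _ => if_congr (by omega) rfl rfl
    · rw [if_neg hc]; exact sum_eq_zero fun j _ => if_neg (by omega)
  · rw [← cut (fun i => same y (x i) (i + 1) n) h n le_rfl]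
    refine sum_congr rfl fun i hi => ?_
    rw [mem_range] at hi
    by_cases hc : h ≤ i ∧ i < n
    · rw [if_pos hc, same, ← cut (fun j => (ind (x i = y j) : ℤ)) (i + 1) n le_rfl]
      refine sum_congr rfl fun j hj => if_congr ?_ rfl rfl
      rw [mem_range] at hj; omega
    · rw [if_neg hc]; exact sum_eq_zero fun j _ => if_neg (by omega)
  · rw [← cut (fun i => same y (x i) 0 g) h n le_rfl]
    refine sum_congr rfl fun i hi => ?_
    rw [mem_range] at hi
    by_cases hc : h ≤ i ∧ i < n
    · rw [if_pos hc, same, ← cut (fun j => (ind (x i = y j) : ℤ)) 0 g (by omega)]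
      exact sum_congr rfl fun j _ => if_congr (by omega) rfl rfl
    · rw [if_neg hc]; exact sum_eq_zero fun j _ => if_neg (by omega)
  · rw [sum_comm, range_eq_Ico (a := g), ← cut (fun j => same x (y j) 0 j) 0 g (by omega)]
    refine sum_congr rfl fun j hj => ?_
    rw [mem_range] at hj
    by_cases hc : 0 ≤ j ∧ j < g
    · rw [if_pos hc, same, ← cut (fun i => (ind (y j = x i) : ℤ)) 0 j (by omega)]
      refine sum_congr rfl fun i _ => if_congr (by omega) ?_ rfl
      simp only [he, ind, eq_comm]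
    · rw [if_neg hc]; exact sum_eq_zero fun i _ => if_neg (by omega)

lemma card_le_sum_ind (w : ℕ) (p : ℕ → Prop) [DecidablePred p] (s : Finset ℕ)
    (hs : ∀ l ∈ s, l < w ∧ p l) : s.card ≤ ∑ l ∈ range w, ind (p l) := by
  unfold ind
  rw [← card_filter]
  exact card_le_card fun l hl => by simp [hs l hl]

/-- equally oriented unary codes -/
lemma dist_same (w C D : ℕ) (hC : C ≤ w) (hD : D ≤ w) :
    |(C : ℤ) - D| ≤ ((∑ l ∈ range w, ind (decide (l < C) ≠ decide (l < D)) : ℕ) : ℤ) := by
  have h := card_le_sum_ind w (fun l => decide (l < C) ≠ decide (l < D))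
    (Ico (min C D) (max C D)) (by
      intro l hl
      rw [mem_Ico] at hl
      refine ⟨by omega, ?_⟩
      simp only [ne_eq, decide_eq_decide]
      omega)
  rw [Nat.card_Ico] at h
  rw [abs_le]
  constructor <;> omega

/-- oppositely oriented unary codes -/
lemma dist_opp (w C D : ℕ) (hC : C ≤ w) (hD : D ≤ w) :
    min ((C : ℤ) + D) (2 * (w : ℤ) - C - D)
      ≤ ((∑ l ∈ range w, ind (decide (l < C) ≠ decide (w - 1 - l < D)) : ℕ) : ℤ) := by
  have h := card_le_sum_ind w (fun l => decide (l < C) ≠ decide (w - 1 - l < D))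
    (range (min C (w - D)) ∪ Ico (max C (w - D)) w) (by
      intro l hl
      simp only [mem_union, mem_range, mem_Ico] at hl
      refine ⟨by omega, ?_⟩
      simp only [ne_eq, decide_eq_decide]
      omega)
  rw [card_union_of_disjoint (by
    rw [disjoint_left]; intro l h1 h2; simp only [mem_range, mem_Ico] at h1 h2; omega),
    card_range, Nat.card_Ico] at h
  omega

lemma bit_bound (k g h i : ℕ) (x y : ℕ → Bool) (hgh : g ≤ h) (hi : i < 2 * k + 1) :
    (if g ≤ i ∧ i < h then
        min (cz k g x i + cz k h y i) (2 * (tent k i : ℤ) - cz k g x i - cz k h y i)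
      else |cz k g x i - cz k h y i|)
      ≤ ((∑ l ∈ range (tent k i), ind (cutBit k g x i l ≠ cutBit k h y i l) : ℕ) : ℤ) := by
  have hC := count_le k g x i hi
  have hD := count_le k h y i hi
  unfold cz cutBit
  by_cases hm : g ≤ i ∧ i < h
  · simp only [if_pos hm, if_neg (show ¬ i < g by omega), if_pos hm.2]
    exact dist_opp _ _ _ hC hD
  · rw [if_neg hm]
    by_cases hl : i < g
    · simp only [if_pos hl, if_pos (show i < h by omega)]
      rw [← sum_range_reflect]
      refine le_trans (dist_same _ _ _ hC hD) (le_of_eq ?_)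
      congr 1
      refine sum_congr rfl fun l hlw => ?_
      rw [mem_range] at hlw
      rw [show tent k i - 1 - (tent k i - 1 - l) = l by omega]
    · simp only [if_neg hl, if_neg (show ¬ i < h by omega)]
      exact dist_same _ _ _ hC hD

/-- (A) the parts are dominated by crossings plus differing bits -/
theorem pairTotal_le (k g h : ℕ) (x y : ℕ → Bool) (hgh : g ≤ h) (hh : h ≤ 2 * k + 1) :
    pairTotal k g h x y
      ≤ ((linCount (2 * k + 1) g h x y + bitDist k (cutBit k g x) (cutBit k h y) : ℕ) : ℤ) := by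
  have hb := sum_le_sum fun i (hi : i ∈ range (2 * k + 1)) =>
    bit_bound k g h i x y hgh (mem_range.1 hi)
  rw [range_eq_Ico, ← sum_Ico_consecutive _ (Nat.zero_le g) (by omega : g ≤ 2 * k + 1),
    ← sum_Ico_consecutive _ hgh hh] at hb
  rw [sum_congr rfl (fun i hi => if_neg (show ¬ (g ≤ i ∧ i < h) by
      rw [mem_Ico] at hi; omega)) (s₁ := Ico 0 g),
    sum_congr rfl (fun i hi => if_pos (show g ≤ i ∧ i < h from mem_Ico.1 hi)) (s₁ := Ico g h),
    sum_congr rfl (fun i hi => if_neg (show ¬ (g ≤ i ∧ i < h) by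
      rw [mem_Ico] at hi; omega)) (s₁ := Ico h (2 * k + 1))] at hb
  have hd : ((bitDist k (cutBit k g x) (cutBit k h y) : ℕ) : ℤ)
      = ∑ i ∈ Ico 0 (2 * k + 1),
        ((∑ l ∈ range (tent k i), ind (cutBit k g x i l ≠ cutBit k h y i l) : ℕ) : ℤ) := by
    unfold bitDist; rw [range_eq_Ico (a := 2 * k + 1)]; push_cast; rfl
  push_cast
  rw [linCount_eq k g h x y hgh hh]
  unfold pairTotal rightPart crossPart midPart
  rw [leftPart_eq k g h x y hgh hh, range_eq_Ico (a := g)]
  simp only [sum_add_distrib]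
  have hswap : ∑ j ∈ Ico 0 g, |cz k h y j - cz k g x j|
      = ∑ j ∈ Ico 0 g, |cz k g x j - cz k h y j| :=
    sum_congr rfl fun j _ => abs_sub_comm _ _
  linarith

/-- (D) the middle under reflection -/
theorem midPart_reflect (k g h A B : ℕ) (x y : ℕ → Bool) (hgA : g ≤ A) (hAB : A ≤ B)
    (hBh : B ≤ h) (hh : h ≤ 2 * k + 1) :
    midPart k g h A B x y
      = midPart k (2 * k + 1 - h) (2 * k + 1 - g) (2 * k + 1 - B) (2 * k + 1 - A)
          (rev k y) (rev k x) := by
  unfold midPart
  rw [← sum_reflect k (fun i => same (rev k x) (rev k y i) (2 * k + 1 - B) i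
    + min (cz k (2 * k + 1 - h) (rev k y) i + cz k (2 * k + 1 - g) (rev k x) i)
      (2 * (tent k i : ℤ) - cz k (2 * k + 1 - h) (rev k y) i
        - cz k (2 * k + 1 - g) (rev k x) i)) A B (by omega),
    sum_add_distrib, sum_add_distrib]
  congr 1
  · unfold same
    rw [← sum_Ico_Ico_comm' A B (fun j i => (ind (x i = y j) : ℤ))]
    refine sum_congr rfl fun j hj => ?_
    rw [mem_Ico] at hj
    rw [show rev k y (2 * k - j) = y j by unfold rev; congr 1; omega]
    have e := same_rev k x (y j) (2 * k + 1 - B) (2 * k - j) (by omega)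
    unfold same at e
    rw [e, show 2 * k + 1 - (2 * k - j) = j + 1 by omega,
      show 2 * k + 1 - (2 * k + 1 - B) = B by omega]
    refine sum_congr rfl fun i _ => ?_
    cases x i <;> cases y j <;> rfl
  · refine sum_congr rfl fun i hi => ?_
    rw [mem_Ico] at hi
    rw [cz_rev k h y i hh (by omega), cz_rev k g x i (by omega) (by omega),
      show tent k (2 * k - i) = tent k i by unfold tent; omega, add_comm (cz k h y i)]
    congr 1
    ring

lemma crossPart_reflect (k g h : ℕ) (x y : ℕ → Bool) (hgh : g ≤ h) (hh : h ≤ 2 * k + 1) :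
    crossPart k (2 * k + 1 - h) (2 * k + 1 - g) (rev k y) (rev k x) = crossPart k g h x y := by
  unfold crossPart
  have h1 : ∑ i ∈ Ico (2 * k + 1 - g) (2 * k + 1),
      same (rev k x) (rev k y i) 0 (2 * k + 1 - h)
      = ∑ i ∈ Ico (2 * k + 1 - g) (2 * k + 1), same x (y (2 * k - i)) h (2 * k + 1) := by
    refine sum_congr rfl fun i _ => ?_
    rw [same_rev k x _ _ _ (by omega)]
    unfold rev
    congr 1; omega
  rw [h1, sum_reflect k (fun j => same x (y j) h (2 * k + 1)) _ _ le_rfl]
  unfold same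
  rw [sum_comm]
  refine sum_congr rfl fun i _ => ?_
  refine sum_congr (by congr 1 <;> omega) fun j _ => ?_
  cases x i <;> cases y j <;> rfl

lemma rightPart_congr (k g h : ℕ) (x y x' y' : ℕ → Bool)
    (hx : ∀ j < 2 * k + 1, x j = x' j) (hy : ∀ j < 2 * k + 1, y j = y' j) :
    rightPart k g h x y = rightPart k g h x' y' := by
  unfold rightPart cz same
  refine sum_congr rfl fun i hi => ?_
  rw [mem_Ico] at hi
  rw [count_congr k g x x' hx i hi.2, count_congr k h y y' hy i hi.2, hx i hi.2]
  congr 1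
  refine sum_congr rfl fun j hj => ?_
  rw [mem_Ico] at hj
  rw [hy j hj.2]

/-- (B) the total is invariant under reflection -/
theorem pairTotal_reflect (k g h : ℕ) (x y : ℕ → Bool) (hgh : g ≤ h) (hh : h ≤ 2 * k + 1) :
    pairTotal k (2 * k + 1 - h) (2 * k + 1 - g) (rev k y) (rev k x) = pairTotal k g h x y := by
  unfold pairTotal
  rw [crossPart_reflect k g h x y hgh hh, ← midPart_reflect k g h g h x y le_rfl hgh le_rfl hh]
  have e1 : leftPart k (2 * k + 1 - h) (2 * k + 1 - g) (rev k y) (rev k x)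
      = rightPart k g h x y := by
    unfold leftPart
    rw [show 2 * k + 1 - (2 * k + 1 - g) = g by omega,
      show 2 * k + 1 - (2 * k + 1 - h) = h by omega]
    exact rightPart_congr k g h _ _ x y (rev_rev k x) (rev_rev k y)
  rw [e1]
  unfold leftPart
  ring

/-- (C) it is enough to treat a first gap `g ≤ k` -/
theorem pairIneq_of (k : ℕ)
    (H : ∀ g h x y, g ≤ k → g ≤ h → h ≤ 2 * k + 1 → (k * k : ℤ) ≤ pairTotal k g h x y) :
    PairIneq k (cutBit k) := by
  intro g h hgh hh x y
  have e := pairTotal_le k g h x y hgh hh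
  rcases le_or_gt g k with hg | hg
  · have := le_trans (H g h x y hg hgh hh) e
    exact_mod_cast this
  · have h1 := H (2 * k + 1 - h) (2 * k + 1 - g) (rev k y) (rev k x) (by omega) (by omega) (by omega)
    rw [pairTotal_reflect k g h x y hgh hh] at h1
    have := le_trans h1 e
    exact_mod_cast this

/-- (E) splitting the middle -/
theorem midPart_split (k g h c : ℕ) (x y : ℕ → Bool) (hgc : g ≤ c) (hch : c ≤ h) :
    midPart k g h g h x y = midPart k g h g c x y + midPart k g h c h x y
      + ∑ i ∈ Ico c h, same y (x i) g c := by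
  unfold midPart
  rw [← sum_Ico_consecutive _ hgc hch, add_assoc (∑ i ∈ Ico g c, _), ← sum_add_distrib]
  congr 1
  refine sum_congr rfl fun i hi => ?_
  rw [mem_Ico] at hi
  have e : same y (x i) g i = same y (x i) g c + same y (x i) c i := by
    unfold same; rw [sum_Ico_consecutive _ hgc hi.1]
  rw [e]; ring

end P040.Cut
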