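import Vale.Agent.P040.TwoBlock.Tent

/-!
# P040: the shuffle lemma

In the middle between two vertices the page word `x` enters only through a permutation
`place x` of the levels; it can be replaced by the permutation `target y` given by `y` alone.
-/

open Finset

namespace P040.Cut

open P040.TwoBlock

/-- ones of `x` in `(j, m)` -/
def above (x : ℕ → Bool) (m j : ℕ) : ℕ := ∑ e ∈ Ico (j + 1) m, ind (true = x e)

/-- letters `c` of `y` in `[0, j)` -/
def below (y : ℕ → Bool) (c : Bool) (j : ℕ) : ℕ := ∑ e ∈ range j, ind (c = y e)

/-- the level of position `j`: ones count from the right, zeros lie above them -/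
def place (x : ℕ → Bool) (m j : ℕ) : ℕ := if x j then above x m j else j + above x m j

/-- the target level -/
def target (y : ℕ → Bool) (m j : ℕ) : ℕ :=
  if y j then below y true j else m - 1 - below y false j

/-- the loss at a position with value `G` and `q` crossings available -/
def loss (b : Bool) (G : ℤ) (q : ℕ) : ℤ :=
  if b then max G (-G - 2 * q) else max (-G) (G - 2 * q)

lemma below_succ (y : ℕ → Bool) (c : Bool) (j : ℕ) :
    below y c (j + 1) = ind (c = y 0) + below (fun e => y (e + 1)) c j := by
  unfold below; rw [sum_range_succ', Nat.add_comm]

lemma below_le (y : ℕ → Bool) (c : Bool) : ∀ j, below y c j ≤ j := by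
  intro j
  induction j with
  | zero => simp [below]
  | succ j ih =>
    unfold below at *
    rw [sum_range_succ]
    have h1 : ind (c = y j) ≤ 1 := by unfold ind; split_ifs <;> omega
    omega

lemma above_succ (x : ℕ → Bool) (m j : ℕ) :
    above x (m + 1) (j + 1) = above (fun e => x (e + 1)) m j := by
  unfold above
  rw [← sum_Ico_add' (fun e => ind (true = x e)) (j + 1) m 1]

/-- increments of a chain telescope over the ones and over the zeros -/
lemma telescope (D : ℕ → ℤ) : ∀ (m : ℕ) (x : ℕ → Bool),
    ∑ j ∈ range m, (if x j then D (above x m j + 1) - D (above x m j) else 0)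
        = D (below x true m) - D 0
    ∧ ∑ j ∈ range m, (if x j then 0 else D (j + above x m j + 1) - D (j + above x m j))
        = D m - D (below x true m) := by
  intro m
  induction m generalizing D with
  | zero => intro x; simp [below]
  | succ m ih =>
    intro x
    rw [sum_range_succ', sum_range_succ', below_succ]
    simp only [above_succ]
    have h0 : above x (m + 1) 0 = below (fun e => x (e + 1)) true m := by
      unfold above below
      rw [range_eq_Ico, ← sum_Ico_add' (fun e => ind (true = x e)) 0 m 1]
    rw [h0]
    obtain ⟨h1, -⟩ := ih D (fun e => x (e + 1))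
    obtain ⟨-, h2⟩ := ih (fun t => D (t + 1)) (fun e => x (e + 1))
    have e2 : ∑ j ∈ range m, (if x (j + 1) then 0 else
        D (j + 1 + above (fun e => x (e + 1)) m j + 1) - D (j + 1 + above (fun e => x (e + 1)) m j))
        = ∑ j ∈ range m, (if x (j + 1) then 0 else
        D (j + above (fun e => x (e + 1)) m j + 1 + 1)
          - D (j + above (fun e => x (e + 1)) m j + 1)) := by
      refine sum_congr rfl fun j _ => ?_
      rw [show j + 1 + above (fun e => x (e + 1)) m j = j + above (fun e => x (e + 1)) m j + 1 by
        omega]
    rw [h1, e2, h2]
    cases hx : x 0 <;> simp [ind]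
    all_goals ring_nf

/-- the shuffle lemma -/
theorem shuffle : ∀ (m : ℕ) (x y : ℕ → Bool) (X Z : ℕ → ℤ),
    (∀ t, X t ≤ X (t + 1) ∧ X (t + 1) ≤ X t + 1) →
    ∑ j ∈ range m, loss (x j) (X (place x m j) + Z j) (below y (x j) j)
      ≤ ∑ j ∈ range m, |X (target y m j) + Z j| := by
  intro m
  induction m with
  | zero => intros; simp
  | succ m ih =>
    intro x y X Z hX
    set x' : ℕ → Bool := fun e => x (e + 1) with hx'
    set y' : ℕ → Bool := fun e => y (e + 1) with hy'
    set c := below x' true m with hc
    have hp0 : place x (m + 1) 0 = c := by
      have h0 : above x (m + 1) 0 = c := by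
        rw [hc]; unfold above below
        rw [range_eq_Ico, ← sum_Ico_add' (fun e => ind (true = x e)) 0 m 1]
      unfold place; split_ifs <;> omega
    have hp : ∀ j, place x (m + 1) (j + 1) = if x' j then place x' m j else place x' m j + 1 := by
      intro j
      unfold place
      rw [above_succ]
      simp only [hx']
      split_ifs <;> omega
    have h00 : below y (x 0) 0 = 0 := by simp [below]
    obtain ⟨t1, t2⟩ := telescope X m x'
    rw [← hc] at t1 t2
    cases hy : y 0 with
    | true =>
      have hm := ih x' y' (fun t => X (t + 1)) (fun j => Z (j + 1)) (fun t => hX (t + 1))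
      have htar : ∀ j ∈ range m, target y (m + 1) (j + 1) = target y' m j + 1 := by
        intro j hj
        rw [mem_range] at hj
        have := below_le y' false j
        unfold target
        rw [below_succ, below_succ, hy]
        simp only [ind, hy']
        split_ifs <;> simp_all <;> omega
      rw [sum_range_succ', sum_range_succ', hp0, h00,
        show target y (m + 1) 0 = 0 by simp [target, hy, below]]
      rw [show ∑ j ∈ range m, |X (target y (m + 1) (j + 1)) + Z (j + 1)|
        = ∑ j ∈ range m, |X (target y' m j + 1) + Z (j + 1)| from
        sum_congr rfl fun j hj => by rw [htar j hj]]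
      have step : ∀ j ∈ range m,
          loss (x (j + 1)) (X (place x (m + 1) (j + 1)) + Z (j + 1)) (below y (x (j + 1)) (j + 1))
            + (if x' j then X (above x' m j + 1) - X (above x' m j) else 0)
          ≤ loss (x' j) (X (place x' m j + 1) + Z (j + 1)) (below y' (x' j) j) := by
        intro j _
        rw [hp j, below_succ, hy]
        have hb := hX (above x' m j)
        cases hxj : x (j + 1) <;> simp only [hx', hxj, place, loss, ind, ← hy', if_true,
          Bool.false_eq_true, if_false] at hb ⊢ <;> push_cast <;> omega
      have hs := sum_le_sum step
      rw [sum_add_distrib, t1] at hs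
      have h0 : loss (x 0) (X c + Z 0) 0 ≤ |X 0 + Z 0| + (X c - X 0) := by
        have : X 0 ≤ X c := by
          clear t1 t2 hs hp0 hc
          induction c with
          | zero => exact le_rfl
          | succ c ihc => exact ihc.trans (hX c).1
        unfold loss
        split_ifs <;> (rw [abs_eq_max_neg]; omega)
      simp only [hx', hy'] at hm hs ⊢
      linarith
    | false =>
      have hm := ih x' y' X (fun j => Z (j + 1)) hX
      have htar : ∀ j ∈ range m, target y (m + 1) (j + 1) = target y' m j := by
        intro j hj
        rw [mem_range] at hj
        have := below_le y' false j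
        unfold target
        rw [below_succ, below_succ, hy]
        simp only [ind, hy']
        split_ifs <;> simp_all <;> omega
      rw [sum_range_succ', sum_range_succ', hp0, h00,
        show target y (m + 1) 0 = m by simp [target, hy, below]]
      rw [show ∑ j ∈ range m, |X (target y (m + 1) (j + 1)) + Z (j + 1)|
        = ∑ j ∈ range m, |X (target y' m j) + Z (j + 1)| from
        sum_congr rfl fun j hj => by rw [htar j hj]]
      have step : ∀ j ∈ range m,
          loss (x (j + 1)) (X (place x (m + 1) (j + 1)) + Z (j + 1)) (below y (x (j + 1)) (j + 1))
            + (if x' j then 0 else X (j + above x' m j + 1) - X (j + above x' m j))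
          ≤ loss (x' j) (X (place x' m j) + Z (j + 1)) (below y' (x' j) j) := by
        intro j _
        rw [hp j, below_succ, hy]
        have hb := hX (j + above x' m j)
        cases hxj : x (j + 1) <;> simp only [hx', hxj, place, loss, ind, ← hy', if_true,
          Bool.false_eq_true, if_false] at hb ⊢ <;> push_cast <;> omega
      have hs := sum_le_sum step
      rw [sum_add_distrib, t2] at hs
      have h0 : loss (x 0) (X c + Z 0) 0 ≤ |X m + Z 0| + (X m - X c) := by
        have hcm : c ≤ m := below_le x' true m
        have hmono : ∀ a b, a ≤ b → X a ≤ X b :=
          fun a b hab => monotone_nat_of_le_succ (fun t => (hX t).1) hab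
        have := hmono c m hcm
        unfold loss
        split_ifs <;> (rw [abs_eq_max_neg]; omega)
      simp only [hx', hy'] at hm hs ⊢
      linarith

end P040.Cut
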