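import Vale.Agent.P040.Cut.Local
import Vale.Agent.P040.Cut.Shuffle

/-!
# P040: a block of the middle part
-/

open Finset

namespace P040.Cut

open P040.TwoBlock

lemma below_shift (y : ℕ → Bool) (c : Bool) (o j : ℕ) :
    below (fun e => y (o + e)) c j = num y c o (o + j) := by
  unfold below
  rw [range_eq_Ico]
  show num (fun e => y (o + e)) c 0 j = _
  rw [num_shift, Nat.add_zero]

lemma above_shift (x : ℕ → Bool) (o m j : ℕ) :
    above (fun e => x (o + e)) m j = num x true (o + j + 1) (o + m) := by
  show num (fun e => x (o + e)) true (j + 1) m = _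
  rw [num_shift, Nat.add_assoc]

lemma psi_symm (K g z z' : ℤ) (hg : 0 ≤ g) (h : z + z' = 2 * K + g) :
    psi K g z = g - psi K g z' := by
  unfold psi; omega

lemma agree_left (k g i t : ℤ) (hg : 0 ≤ g) (hik : i ≤ k) :
    agree k g i t = i - g + psi (k - g) g t := by
  unfold agree pp; rw [abs_eq_max_neg]; omega

/-- what the shuffled block leaves at a letter `c` of rank `r` -/
def leftover (K g : ℤ) (A b : Bool → ℕ) (c : Bool) (r : ℕ) (s : ℤ) : ℤ :=
  |psi K g ((A c : ℤ) + r) + max (b c : ℤ) (s - r) - g|

/-- a block `[g, g + M)` of the middle, `s j` being the free part of the second code -/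
theorem mid_block (k g h M : ℕ) (x y : ℕ → Bool) (s : ℕ → ℤ) (hg : g ≤ k) (hM : g + M ≤ k + 1)
    (hch : ∀ j < M, cz k h y (g + j)
      = if y (g + j) then max (s j) (num y true 0 (g + j) : ℤ)
        else (g : ℤ) + j - max (s j) (num y false 0 (g + j) : ℤ)) :
    ∑ j ∈ range M, ((g : ℤ) + j
      - leftover ((k : ℤ) - g) g (fun c => num x c (g + M) (2 * k + 1)) (fun c => num y c 0 g)
          (y (g + j)) (num y (y (g + j)) g (g + j)) (s j))
      ≤ midPart k g h g (g + M) x y := by
  set n := 2 * k + 1 with hn
  set X : ℕ → ℤ := fun t => psi ((k : ℤ) - g) g ((num x true (g + M) n : ℤ) + t) - g with hX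
  set Z : ℕ → ℤ := fun j => cz k h y (g + j) - (num y true g (g + j) : ℤ) with hZ
  have hXs : ∀ t, X t ≤ X (t + 1) ∧ X (t + 1) ≤ X t + 1 := by
    intro t; simp only [hX, psi]; omega
  have hs := shuffle M (fun e => x (g + e)) (fun e => y (g + e)) X Z hXs
  have hA := num_pair x (g + M) n
  have e1 : ∀ j ∈ range M, leftover ((k : ℤ) - g) g (fun c => num x c (g + M) n)
      (fun c => num y c 0 g) (y (g + j)) (num y (y (g + j)) g (g + j)) (s j)
      = |X (target (fun e => y (g + e)) M j) + Z j| := by
    intro j hj
    rw [mem_range] at hj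
    have hy := num_pair y g (g + j)
    have hb := num_pair y 0 g
    have ha1 := num_add y true (Nat.zero_le g) (Nat.le_add_right g j)
    have ha2 := num_add y false (Nat.zero_le g) (Nat.le_add_right g j)
    unfold leftover target
    simp only [hX, hZ, below_shift, hch j hj]
    cases hyj : y (g + j) <;> simp only [if_true, if_false, Bool.false_eq_true]
    · rw [psi_symm ((k : ℤ) - g) g
        ((num x true (g + M) n : ℤ) + ((M - 1 - num y false g (g + j) : ℕ) : ℤ))
        ((num x false (g + M) n : ℤ) + num y false g (g + j)) (by omega) (by omega), ← abs_neg]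
      congr 1
      omega
    · congr 1
      omega
  have e2 : ∀ j ∈ range M, (g : ℤ) + j
      - loss (x (g + j)) (X (place (fun e => x (g + e)) M j) + Z j)
          (below (fun e => y (g + e)) (x (g + j)) j)
      ≤ same y (x (g + j)) g (g + j)
        + min (cz k g x (g + j) + cz k h y (g + j))
            (2 * (tent k (g + j) : ℤ) - cz k g x (g + j) - cz k h y (g + j)) := by
    intro j hj
    rw [mem_range] at hj
    have hy := num_pair y g (g + j)
    have hx := num_pair x (g + j + 1) (g + M)
    have hs1 := num_add x true (show g + j + 1 ≤ g + M by omega) (show g + M ≤ n by omega)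
    have hs0 := num_add x false (show g + j + 1 ≤ g + M by omega) (show g + M ≤ n by omega)
    have hw : (tent k (g + j) : ℤ) = (g : ℤ) + j := by unfold tent; omega
    rw [same_eq, count_right k g x (g + j) (by omega) (by omega), Nat.min_eq_left hg,
      agree_left _ _ _ _ (by omega) (by omega), hw,
      abs_of_nonpos (show ((g + j : ℕ) : ℤ) - k ≤ 0 by omega)]
    unfold place loss
    simp only [hX, hZ, below_shift, above_shift]
    cases hxj : x (g + j) <;> simp only [if_true, if_false, Bool.false_eq_true, ← hn]
    · rw [psi_symm ((k : ℤ) - g) g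
        ((num x true (g + M) n : ℤ) + ((j + num x true (g + j + 1) (g + M) : ℕ) : ℤ))
        (num x false (g + j + 1) n : ℤ) (by omega) (by omega)]
      omega
    · rw [hs1]
      push_cast
      rw [add_comm (num x true (g + j + 1) (g + M) : ℤ)]
      omega
  unfold midPart
  rw [sum_Ico_eq_sum_range, Nat.add_sub_cancel_left, sum_sub_distrib, sum_congr rfl e1]
  have h2 := sum_le_sum e2
  rw [sum_sub_distrib] at h2
  linarith

end P040.Cut
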