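import Vale.Agent.P040.Cut.RightBound
import Vale.Agent.P040.Cut.MiddleBound

/-!
# P040: the parts add up to at least `k²`, second gap beyond the middle
-/

open Finset

namespace P040.Cut

/-- a difference of two triangular numbers, increments `clamp x 0 w` -/
def rtri (w x : ℤ) : ℤ := tri2 x - tri2 (x - w)

lemma rtri_step (w x : ℤ) : rtri w x - rtri w (x - 1) = 2 * (pp x - pp (x - w)) := by
  unfold rtri pp
  have h1 := tri2_step x
  have h2 := tri2_step (x - w)
  rw [show x - 1 - w = x - w - 1 by ring]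
  linarith

lemma rtri_telescope (w e δ : ℤ) : ∀ D : ℕ,
    2 * ∑ d ∈ range D, ((pp (e - d) - pp (e - d - w)) - (pp (d + 1 - δ) - pp (d + 1 - δ - w)))
      = rtri w e - rtri w (e - D) - rtri w (D - δ) + rtri w (-δ) := by
  intro D
  induction D with
  | zero => simp
  | succ D ih =>
    have h1 := rtri_step w (e - D)
    have h2 := rtri_step w ((D : ℤ) + 1 - δ)
    rw [sum_range_succ, mul_add, ih]
    rw [show (D : ℤ) + 1 - δ - 1 = D - δ by ring] at h2
    rw [show e - ((D + 1 : ℕ) : ℤ) = e - D - 1 by push_cast; ring,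
      show ((D + 1 : ℕ) : ℤ) - δ = (D : ℤ) + 1 - δ by push_cast; ring]
    linarith

/-- negative excursions counted by height -/
lemma count_heights (u e δ : ℤ) (D v : ℕ) :
    ∑ r ∈ range v, pp (min (D : ℤ) (min (δ + r) (e - u - r)))
      = ∑ d ∈ range D, pp (min (v : ℤ) (e - u - d) - max ((d : ℤ) + 1 - δ) 0) := by
  unfold pp
  rw [sum_congr rfl fun r _ => pos_eq_sum _ D (min_le_left _ _), sum_comm]
  refine sum_congr rfl fun d hd => ?_
  rw [mem_range] at hd
  rw [← sum_indicator ((d : ℤ) + 1 - δ) (e - u - d) v]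
  refine sum_congr rfl fun r _ => ?_
  split_ifs <;> omega

lemma height_step (u v e δ d : ℤ) (hu : 0 ≤ u) (hv : 0 ≤ v) (hd : 2 * (d + 1) ≤ e + δ) :
    pp (min v (e - u - d) - max (d + 1 - δ) 0) + pp (min u (e - v - d) - max (d + 1 - δ) 0)
      ≤ (pp (e - d) - pp (e - d - (u + v))) - (pp (d + 1 - δ) - pp (d + 1 - δ - (u + v))) := by
  unfold pp; omega

/-- all negative excursions of one colour -/
lemma neg_total (e δ m nn : ℤ) (u v : ℕ) (hsum : m + nn = e - δ) (hm : m ≤ e) (hn : nn ≤ e) :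
    2 * (∑ r ∈ range v, pp (min (e - max m nn) (min (δ + r) (e - u - r)))
        + ∑ r ∈ range u, pp (min (e - max m nn) (min (δ + r) (e - v - r))))
      + rtri ((u : ℤ) + v) m + rtri ((u : ℤ) + v) nn
      ≤ rtri ((u : ℤ) + v) e + tri2 (-δ) := by
  obtain ⟨D, hD⟩ : ∃ D : ℕ, (D : ℤ) = e - max m nn := ⟨(e - max m nn).toNat, by omega⟩
  rw [← hD, count_heights, count_heights, ← sum_add_distrib]
  have h := rtri_telescope ((u : ℤ) + v) e δ D
  have hs := sum_le_sum fun d (hd : d ∈ range D) =>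
    height_step u v e δ d (by omega) (by omega) (by rw [mem_range] at hd; omega)
  have hneg : rtri ((u : ℤ) + v) (-δ) ≤ tri2 (-δ) := by
    have := tri2_nonneg (-δ - ((u : ℤ) + v)); unfold rtri; linarith
  rcases le_total m nn with hc | hc
  · rw [max_eq_right hc] at hD
    rw [show e - (D : ℤ) = nn by omega, show (D : ℤ) - δ = m by omega] at h
    linarith
  · rw [max_eq_left hc] at hD
    rw [show e - (D : ℤ) = m by omega, show (D : ℤ) - δ = nn by omega] at h
    linarith

/-- closed form of the signed sum in one block -/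
lemma signed_sum (k g : ℕ) (A b L : ℤ) (v : ℕ) (hA : A ≤ k + 1) :
    2 * ∑ r ∈ range v, (psi ((k : ℤ) - g) g (A + r) + max b (L - r) - g)
      = (tri2 (A + v - ((k : ℤ) - g) - 1) - tri2 (A - ((k : ℤ) - g) - 1))
        - tri2 (A + v - k - 1) + (tri2 (L - b) - tri2 (L - b - v)) + 2 * v * (b - g) := by
  rw [sum_congr rfl (g := fun r : ℕ => max 0 (A - ((k : ℤ) - g) + r) - max 0 (A - k + r)
      + max 0 (L - b - r) + (b - g)) fun r _ => by unfold psi; omega]
  simp only [sum_add_distrib, sum_sub_distrib, mul_add, mul_sub]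
  rw [sum_pos_up, sum_pos_up, sum_pos_down, sum_const, sum_const, card_range, nsmul_eq_mul,
    nsmul_eq_mul, tri2_of_nonpos (m := A - (k : ℤ) - 1) (by omega),
    show A - ((k : ℤ) - g) + v - 1 = A + v - ((k : ℤ) - g) - 1 by ring,
    show A - (k : ℤ) + v - 1 = A + v - k - 1 by ring]
  ring

/-- the quadratic part of one colour -/
def quad (K L g p a b u v : ℤ) : ℤ :=
  (K - a) * (K - a + 1) + (L - b) * (L - b + 1) + (a + u - K) * (a + u - K - 1)
    + (b + v - L) * (b + v - L - 1) + 2 * a * b + 2 * u * v - 2 * v * (b - g) - 2 * u * (a - p)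
    - (u + v - (K - a)) * (u + v - (K - a) - 1) - (u + v - (L - b)) * (u + v - (L - b) - 1)

/-- one colour -/
lemma colour_bound (k g p a b u v : ℕ) (hg : g ≤ k) (hp : p ≤ k) (ha : a ≤ p) (hb : b ≤ g)
    (hu : u + p ≤ k) (hv : v + g ≤ k + 1) :
    quad ((k : ℤ) - g) ((k : ℤ) - p) g p a b u v
      - 2 * (tri2 ((k : ℤ) - a - b) - tri2 ((k : ℤ) - a - b - ((u : ℤ) + v)))
      - 2 * tri2 ((k : ℤ) - g - p)
      + (tri2 ((a : ℤ) + u + v - k - 1) - tri2 ((k : ℤ) - g - a - u - v))
      + (tri2 ((b : ℤ) + u + v - k - 1) - tri2 ((k : ℤ) - p - b - u - v))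
      ≤ 2 * (∑ t ∈ range a, psi ((k : ℤ) - g) g t + ∑ t ∈ range b, psi ((k : ℤ) - p) p t
          + (a : ℤ) * b + (u : ℤ) * v
          - ∑ r ∈ range v, |psi ((k : ℤ) - g) g ((a : ℤ) + u + r)
              + max (b : ℤ) ((k : ℤ) - p - r) - g|
          - ∑ r ∈ range u, |psi ((k : ℤ) - p) p ((b : ℤ) + v + r)
              + max (a : ℤ) ((k : ℤ) - g - r) - p|) := by
  have hX : ∀ r ∈ range v, |psi ((k : ℤ) - g) g ((a : ℤ) + u + r)
        + max (b : ℤ) ((k : ℤ) - p - r) - g|
      ≤ (psi ((k : ℤ) - g) g ((a : ℤ) + u + r) + max (b : ℤ) ((k : ℤ) - p - r) - g)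
        + 2 * pp (min ((k : ℤ) - a - b - max ((k : ℤ) - g - a) ((k : ℤ) - p - b))
            (min ((g : ℤ) + p - k + r) ((k : ℤ) - a - b - u - r))) := by
    intro r _; rw [abs_eq_max_neg]; unfold psi pp; omega
  have hY : ∀ r ∈ range u, |psi ((k : ℤ) - p) p ((b : ℤ) + v + r)
        + max (a : ℤ) ((k : ℤ) - g - r) - p|
      ≤ (psi ((k : ℤ) - p) p ((b : ℤ) + v + r) + max (a : ℤ) ((k : ℤ) - g - r) - p)
        + 2 * pp (min ((k : ℤ) - a - b - max ((k : ℤ) - g - a) ((k : ℤ) - p - b))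
            (min ((g : ℤ) + p - k + r) ((k : ℤ) - a - b - v - r))) := by
    intro r _; rw [abs_eq_max_neg]; unfold psi pp; omega
  have sX := sum_le_sum hX
  have sY := sum_le_sum hY
  rw [sum_add_distrib, ← mul_sum] at sX sY
  have cX := signed_sum k g ((a : ℤ) + u) b ((k : ℤ) - p) v (by omega)
  have cY := signed_sum k p ((b : ℤ) + v) a ((k : ℤ) - g) u (by omega)
  have cA := two_psi k g a hg (by omega)
  have cB := two_psi k p b hp (by omega)
  have N := neg_total ((k : ℤ) - a - b) ((g : ℤ) + p - k) ((k : ℤ) - g - a) ((k : ℤ) - p - b) u v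
    (by ring) (by omega) (by omega)
  rw [show -((g : ℤ) + p - k) = (k : ℤ) - g - p by ring] at N
  have d1 := tri2_dual ((a : ℤ) + u - ((k : ℤ) - g))
  have d2 := tri2_dual ((b : ℤ) + v - ((k : ℤ) - p))
  have d3 := tri2_dual ((a : ℤ) + u + v - ((k : ℤ) - g))
  have d4 := tri2_dual ((b : ℤ) + v + u - ((k : ℤ) - p))
  have d5 := tri2_dual ((a : ℤ) - ((k : ℤ) - g))
  have d6 := tri2_dual ((b : ℤ) - ((k : ℤ) - p))
  rw [show -((a : ℤ) + u - ((k : ℤ) - g)) = (k : ℤ) - g - a - u by ring] at d1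
  rw [show -((b : ℤ) + v - ((k : ℤ) - p)) = (k : ℤ) - p - b - v by ring] at d2
  rw [show -((a : ℤ) + u + v - ((k : ℤ) - g)) = (k : ℤ) - g - a - ((u : ℤ) + v) by ring] at d3
  rw [show -((b : ℤ) + v + u - ((k : ℤ) - p)) = (k : ℤ) - p - b - ((u : ℤ) + v) by ring] at d4
  rw [show -((a : ℤ) - ((k : ℤ) - g)) = (k : ℤ) - g - a by ring] at d5
  rw [show -((b : ℤ) - ((k : ℤ) - p)) = (k : ℤ) - p - b by ring] at d6
  rw [show (k : ℤ) - g - a - u - v = (k : ℤ) - g - a - ((u : ℤ) + v) by ring,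
    show (k : ℤ) - p - b - u - v = (k : ℤ) - p - b - ((u : ℤ) + v) by ring,
    show (b : ℤ) + u + v - k - 1 = (b : ℤ) + v + u - k - 1 by ring]
  unfold quad
  unfold rtri at N
  linarith

/-- the constants of the high case -/
lemma high_consts (k g p : ℕ) (hg : g ≤ k) (hp : p ≤ k) :
    ((p : ℤ) * ((p : ℤ) - 1) - tri2 ((p : ℤ) - 1 - ((k : ℤ) - g)))
      + ((g : ℤ) * ((g : ℤ) - 1) - tri2 ((g : ℤ) - 1 - ((k : ℤ) - p)))
      + 2 * ∑ j ∈ range (k + 1 - g), max ((g : ℤ) + j) ((k : ℤ) - p)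
      + 2 * ∑ j ∈ range (k - p), max ((p : ℤ) + j) ((k : ℤ) - g)
      = 2 * (k : ℤ) * k - 2 * tri2 ((g : ℤ) + p - k - 1) + 2 * tri2 ((k : ℤ) - g - p) := by
  rw [sum_congr rfl (g := fun j : ℕ => (g : ℤ) + j + max 0 ((k : ℤ) - p - g - j))
      fun j _ => by omega,
    sum_congr rfl (s₁ := range (k - p))
      (g := fun j : ℕ => (p : ℤ) + j + max 0 ((k : ℤ) - g - p - j)) fun j _ => by omega]
  simp only [sum_add_distrib, mul_add, sum_pos_down, two_mul_sum_range, sum_const, card_range,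
    nsmul_eq_mul]
  rw [show ((k + 1 - g : ℕ) : ℤ) = (k : ℤ) + 1 - g by omega,
    show ((k - p : ℕ) : ℤ) = (k : ℤ) - p by omega,
    tri2_of_nonpos (m := (k : ℤ) - p - g - ((k : ℤ) + 1 - g)) (by omega),
    tri2_of_nonpos (m := (k : ℤ) - g - p - ((k : ℤ) - p)) (by omega)]
  ring_nf

/-- the high case, as an inequality between counts -/
theorem balance_high (k g p : ℕ) (a b u v : Bool → ℕ) (hg : g ≤ k) (hp : p ≤ k)
    (ha : a true + a false = p) (hb : b true + b false = g) (hu : u true + u false = k - p)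
    (hv : v true + v false = k + 1 - g) :
    2 * (k : ℤ) * k ≤
      2 * psiSums k g a + 2 * psiSums k p b
      + ((p : ℤ) * ((p : ℤ) - 1) - tri2 ((p : ℤ) - 1 - ((k : ℤ) - g)))
      + ((g : ℤ) * ((g : ℤ) - 1) - tri2 ((g : ℤ) - 1 - ((k : ℤ) - p)))
      + 2 * ((a true : ℤ) * b true + (a false : ℤ) * b false)
      + 2 * ((u true : ℤ) * v true + (u false : ℤ) * v false)
      + 2 * (∑ j ∈ range (k + 1 - g), max ((g : ℤ) + j) ((k : ℤ) - p)
          - (∑ r ∈ range (v true),
              leftover ((k : ℤ) - g) g (fun c => a c + u c) b true r ((k : ℤ) - p)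
            + ∑ r ∈ range (v false),
              leftover ((k : ℤ) - g) g (fun c => a c + u c) b false r ((k : ℤ) - p)))
      + 2 * (∑ j ∈ range (k - p), max ((p : ℤ) + j) ((k : ℤ) - g)
          - (∑ r ∈ range (u true),
              leftover ((k : ℤ) - p) p (fun c => b c + v c) a true r ((k : ℤ) - g)
            + ∑ r ∈ range (u false),
              leftover ((k : ℤ) - p) p (fun c => b c + v c) a false r ((k : ℤ) - g))) := by
  have C1 := colour_bound k g p (a true) (b true) (u true) (v true) hg hp (by omega) (by omega)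
    (by omega) (by omega)
  have C0 := colour_bound k g p (a false) (b false) (u false) (v false) hg hp (by omega) (by omega)
    (by omega) (by omega)
  have hc := high_consts k g p hg hp
  unfold psiSums leftover
  push_cast
  have ea : (a false : ℤ) = p - a true := by omega
  have eb : (b false : ℤ) = g - b true := by omega
  have eu : (u false : ℤ) = k - p - u true := by omega
  have ev : (v false : ℤ) = k + 1 - g - v true := by omega
  have l1 := tri2_le ((k : ℤ) - a true - b true)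
  have l0 := tri2_le ((k : ℤ) - a false - b false)
  have de := tri2_dual ((u true : ℤ) + v true - ((k : ℤ) - a true - b true))
  have dd := tri2_dual ((g : ℤ) + p - k)
  rw [ea, eb, eu, ev] at C0
  rw [ea, eb] at l0
  have hQ : quad ((k : ℤ) - g) ((k : ℤ) - p) g p (a true) (b true) (u true) (v true)
      + quad ((k : ℤ) - g) ((k : ℤ) - p) g p ((p : ℤ) - a true) ((g : ℤ) - b true)
          ((k : ℤ) - p - u true) ((k : ℤ) + 1 - g - v true)
      - 2 * (((k : ℤ) - a true - b true) * ((k : ℤ) - a true - b true + 1))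
      - 2 * (((k : ℤ) - ((p : ℤ) - a true) - ((g : ℤ) - b true))
          * ((k : ℤ) - ((p : ℤ) - a true) - ((g : ℤ) - b true) + 1))
      + 2 * (((u true : ℤ) + v true - ((k : ℤ) - a true - b true))
          * ((u true : ℤ) + v true - ((k : ℤ) - a true - b true) - 1))
      - 2 * (((g : ℤ) + p - k) * ((g : ℤ) + p - k - 1)) = 0 := by
    unfold quad; ring
  rw [ea, eb, eu, ev]
  ring_nf at C1 C0 hc l1 l0 de dd hQ ⊢
  linarith

end P040.Cut
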