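import Vale.Agent.P040.Cut.RightBound
import Vale.Agent.P040.Cut.MiddleBound

/-!
# P040: the parts add up to at least `k²`, both gaps in the first half
-/

open Finset

namespace P040.Cut

/-- one colour -/
lemma low_colour (k g a b b' m : ℕ) (hg : g ≤ k) (hb : b + b' = g) (ham : a + m + g ≤ 2 * k + 1) :
    2 * (a : ℤ) * g - 2 * ((k : ℤ) + 1 - g) * b' - (b' : ℤ) * ((b' : ℤ) - 1)
      ≤ 2 * (∑ t ∈ range a, psi ((k : ℤ) - g) g t + (a : ℤ) * b
          - ∑ t ∈ range m, pp ((b' : ℤ) - psi ((k : ℤ) - g) g ((a : ℤ) + t))) := by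
  have h1 : ∑ _t ∈ range a, (b' : ℤ)
      ≤ ∑ t ∈ range a, (psi ((k : ℤ) - g) g t + pp ((b' : ℤ) - psi ((k : ℤ) - g) g t)) :=
    sum_le_sum fun t _ => by unfold pp psi; omega
  rw [sum_const, card_range, nsmul_eq_mul, sum_add_distrib] at h1
  have h2 : ∑ t ∈ range (a + m), pp ((b' : ℤ) - psi ((k : ℤ) - g) g (t : ℕ))
      ≤ ∑ t ∈ range (k + 1 - g + k), pp ((b' : ℤ) - psi ((k : ℤ) - g) g (t : ℕ)) :=
    sum_le_sum_of_subset_of_nonneg (by intro t ht; simp only [mem_range] at ht ⊢; omega)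
      fun t _ _ => le_max_left _ _
  rw [sum_range_add, sum_range_add] at h2
  have h3 : 2 * ∑ t ∈ range (k + 1 - g), pp ((b' : ℤ) - psi ((k : ℤ) - g) g (t : ℕ))
      = 2 * ((k : ℤ) + 1 - g) * b' := by
    rw [sum_congr rfl (g := fun _ : ℕ => (b' : ℤ)) fun t ht => by
      rw [mem_range] at ht; unfold pp psi; omega]
    rw [sum_const, card_range, nsmul_eq_mul, show ((k + 1 - g : ℕ) : ℤ) = k + 1 - g by omega]
    ring
  have h4 : 2 * ∑ t ∈ range k, pp ((b' : ℤ) - psi ((k : ℤ) - g) g ((k + 1 - g + t : ℕ) : ℤ))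
      = (b' : ℤ) * ((b' : ℤ) - 1) := by
    rw [sum_congr rfl (g := fun t : ℕ => max 0 ((b' : ℤ) - 1 - t)) fun t _ => by
      unfold pp psi; omega]
    rw [sum_pos_down, tri2_of_nonpos (m := (b' : ℤ) - 1 - k) (by omega)]
    rcases Nat.eq_zero_or_pos b' with h | h
    · subst h; simp [tri2]
    · rw [tri2_of_nonneg (by omega)]; ring
  push_cast at h2
  have hb2 : (b : ℤ) = g - b' := by omega
  rw [hb2]
  push_cast at h4
  linarith

/-- the low case, as an inequality between counts -/
theorem balance_low (k g h : ℕ) (a b u : Bool → ℕ) (hgh : g ≤ h) (hh : h ≤ k)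
    (ha : a true + a false = 2 * k + 1 - h) (hb : b true + b false = g)
    (hu : u true + u false = h - g) :
    2 * (k : ℤ) * k ≤
      2 * psiSums k g a + 2 * psiSums k k b
      + 2 * (((k : ℤ) - h) * k) + 2 * ((h : ℤ) - g) * ((k : ℤ) + 1)
      - ((h : ℤ) - g) * ((h : ℤ) - g + 1)
      + 2 * ((a true : ℤ) * b true + (a false : ℤ) * b false)
      + 2 * (∑ j ∈ range (h - g), ((g : ℤ) + j)
          - (∑ r ∈ range (u true), leftover ((k : ℤ) - g) g a b true r 0
            + ∑ r ∈ range (u false), leftover ((k : ℤ) - g) g a b false r 0)) := by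
  set K : ℤ := (k : ℤ) - g with hK
  have eS : ∑ r ∈ range (u true), leftover K g a b true r 0
      + ∑ r ∈ range (u false), leftover K g a b false r 0
      = ∑ t ∈ range (h - g), (pp ((b false : ℤ) - psi K g ((a true : ℤ) + t))
          + pp (psi K g ((a true : ℤ) + t) - b false)) := by
    rw [← hu, sum_range_add, ← sum_range_reflect (fun r => leftover K g a b false r 0) (u false)]
    refine congrArg₂ (· + ·) (sum_congr rfl fun t _ => ?_) (sum_congr rfl fun t ht => ?_)
    · unfold leftover pp; rw [abs_eq_max_neg]; omega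
    · rw [mem_range] at ht
      unfold leftover
      rw [psi_symm K g ((a true : ℤ) + (u true + t : ℕ)) ((a false : ℤ) + (u false - 1 - t : ℕ))
        (by omega) (by omega), abs_eq_max_neg]
      unfold pp
      omega
  have eR : ∑ t ∈ range (h - g), pp (psi K g ((a true : ℤ) + t) - b false)
      = ∑ t ∈ range (h - g), pp ((b true : ℤ) - psi K g ((a false : ℤ) + t)) := by
    rw [← sum_range_reflect (fun t : ℕ => pp ((b true : ℤ) - psi K g ((a false : ℤ) + t)))]
    refine sum_congr rfl fun t ht => ?_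
    rw [mem_range] at ht
    rw [psi_symm K g ((a true : ℤ) + t) ((a false : ℤ) + (h - g - 1 - t : ℕ)) (by omega) (by omega)]
    congr 1
    omega
  have C1 := low_colour k g (a true) (b true) (b false) (h - g) (by omega) hb (by omega)
  have C0 := low_colour k g (a false) (b false) (b true) (h - g) (by omega) (by omega) (by omega)
  have t1 : ∀ c, 2 * ∑ t ∈ range (b c), psi ((k : ℤ) - k) k t = (b c : ℤ) * ((b c : ℤ) - 1) := by
    intro c
    rw [sum_congr rfl (g := fun t : ℕ => (t : ℤ)) fun t ht => by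
      rw [mem_range] at ht
      have : b c ≤ g := by cases c <;> omega
      unfold psi; omega]
    exact two_mul_sum_range _
  have hs : 2 * ∑ j ∈ range (h - g), ((g : ℤ) + j)
      = 2 * ((h : ℤ) - g) * g + ((h : ℤ) - g) * ((h : ℤ) - g - 1) := by
    rw [sum_add_distrib, mul_add, two_mul_sum_range, sum_const, card_range, nsmul_eq_mul,
      show ((h - g : ℕ) : ℤ) = (h : ℤ) - g by omega]
    ring
  have hk : 2 * (a true : ℤ) * g + 2 * (a false : ℤ) * g
      - 2 * ((k : ℤ) + 1 - g) * b false - 2 * ((k : ℤ) + 1 - g) * b true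
      + 2 * (((k : ℤ) - h) * k) + 2 * ((h : ℤ) - g) * ((k : ℤ) + 1)
      - ((h : ℤ) - g) * ((h : ℤ) - g + 1)
      + 2 * ((h : ℤ) - g) * g + ((h : ℤ) - g) * ((h : ℤ) - g - 1) = 2 * (k : ℤ) * k := by
    have e1 : (a false : ℤ) = 2 * k + 1 - h - a true := by omega
    have e2 : (b false : ℤ) = g - b true := by omega
    rw [e1, e2]; ring
  unfold psiSums
  rw [sum_add_distrib, eR] at eS
  rw [eS]
  linarith [t1 true, t1 false]

end P040.Cut
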