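import Vale.Agent.P040.Cut.Reduce

/-!
# P040: the explicit cut code
-/

open Finset

namespace P040.Cut

open P040.TwoBlock

/-- number of ones of `x` in `[a, b)` -/
def cnt (x : ℕ → Bool) (a b : ℕ) : ℕ := ∑ j ∈ Ico a b, (x j).toNat

/-- projection of `u` to `[x (w - h), x (w - h) + h]` -/
def proj (xi : Bool) (w h u : ℕ) : ℕ :=
  min (max u (xi.toNat * (w - h))) (xi.toNat * (w - h) + h)

/-- number of set bits at position `i` of a vertex in gap `g` with word `x` -/
def count (k g : ℕ) (x : ℕ → Bool) (i : ℕ) : ℕ :=
  if g ≤ k then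
    if i < g then cnt x 0 i
    else proj (x i) (tent k i) (min (g - (i - k)) (tent k i)) (cnt x (i + 1) (2 * k + 1) - (k - i))
  else
    if g ≤ i then cnt x (i + 1) (2 * k + 1)
    else proj (x i) (tent k i) (min (2 * k + 1 - g - (k - i)) (tent k i))
      (cnt x 0 i - (i - k))

/-- bit `l` at position `i`; the order of the levels is reversed left of the vertex -/
def cutBit (k g : ℕ) (x : ℕ → Bool) (i l : ℕ) : Bool :=
  decide ((if i < g then tent k i - 1 - l else l) < count k g x i)

end P040.Cut
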