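import Vale.Agent.P040.Cut.Parts
import Vale.Agent.P040.Cut.Arith

/-!
# P040: counting letters and reading off the code
-/

open Finset

namespace P040.Cut

open P040.TwoBlock

/-- positive part -/
def pp (x : ℤ) : ℤ := max 0 x

/-- clamp of `t - K` to `[0, g]` -/
def psi (K g t : ℤ) : ℤ := max 0 (min (t - K) g)

/-- letters equal to `c` in `[a, b)` -/
def num (y : ℕ → Bool) (c : Bool) (a b : ℕ) : ℕ := ∑ j ∈ Ico a b, ind (c = y j)

lemma same_eq (y : ℕ → Bool) (c : Bool) (a b : ℕ) : same y c a b = (num y c a b : ℤ) := by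
  unfold same num; push_cast; rfl

lemma num_pair (y : ℕ → Bool) (a b : ℕ) : num y true a b + num y false a b = b - a := by
  unfold num
  rw [← sum_add_distrib, sum_congr rfl (g := fun _ => 1) fun j _ => by cases y j <;> simp [ind]]
  simp

lemma num_add (y : ℕ → Bool) (c : Bool) {a b d : ℕ} (h1 : a ≤ b) (h2 : b ≤ d) :
    num y c a d = num y c a b + num y c b d := by
  unfold num; rw [sum_Ico_consecutive _ h1 h2]

lemma num_shift (y : ℕ → Bool) (c : Bool) (o a b : ℕ) :
    num (fun j => y (o + j)) c a b = num y c (o + a) (o + b) := by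
  unfold num
  rw [Nat.add_comm o a, Nat.add_comm o b, ← sum_Ico_add' (fun j => ind (c = y j)) a b o]
  refine sum_congr rfl fun j _ => ?_
  simp only [Nat.add_comm o j]

lemma num_rev (k : ℕ) (y : ℕ → Bool) (c : Bool) {a b : ℕ} (hab : a ≤ b)
    (hb : b ≤ 2 * k + 1) :
    num (rev k y) c a b = num y c (2 * k + 1 - b) (2 * k + 1 - a) := by
  unfold num
  refine sum_nbij' (fun j => 2 * k - j) (fun j => 2 * k - j) ?_ ?_ ?_ ?_ ?_
  all_goals intro j hj
  all_goals first
    | rfl
    | (simp only [mem_Ico] at hj ⊢; omega)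

lemma cnt_eq (x : ℕ → Bool) (a b : ℕ) : cnt x a b = num x true a b := by
  unfold cnt num
  refine sum_congr rfl fun j _ => ?_
  cases x j <;> simp [ind]

/-- sum over letters of a function of the number of later equal letters -/
lemma sum_class (f : ℤ → ℤ) (y : ℕ → Bool) {h n : ℕ} (hn : h ≤ n) :
    ∑ i ∈ Ico h n, f (num y (y i) (i + 1) n : ℤ)
      = ∑ t ∈ range (num y true h n), f (t : ℤ) + ∑ t ∈ range (num y false h n), f (t : ℤ) := by
  have e := sum_later (fun t => f (t : ℤ)) (n - h) (fun j => y (h + j))
  have e1 : ∀ i, ∀ c, later (fun j => y (h + j)) i (n - h) c = num y c (h + i + 1) n := by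
    intro i c
    show num (fun j => y (h + j)) c (i + 1) (n - h) = _
    rw [num_shift, show h + (n - h) = n by omega, show h + (i + 1) = h + i + 1 by omega]
  have e2 : ∀ c, occ (fun j => y (h + j)) (n - h) c = num y c h n := by
    intro c
    unfold occ
    rw [range_eq_Ico]
    show num (fun j => y (h + j)) c 0 (n - h) = _
    rw [num_shift, show h + (n - h) = n by omega, Nat.add_zero]
  simp only [e1, e2] at e
  rw [sum_Ico_eq_sum_range]
  exact e

/-- sum over letters of a function of their colour and rank -/
lemma sum_rank (F : Bool → ℕ → ℤ) (y : ℕ → Bool) : ∀ m : ℕ,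
    ∑ j ∈ range m, F (y j) (num y (y j) 0 j)
      = ∑ r ∈ range (num y true 0 m), F true r + ∑ r ∈ range (num y false 0 m), F false r := by
  intro m
  induction m with
  | zero => simp [num]
  | succ m ih =>
    have hs : ∀ c, num y c 0 (m + 1) = num y c 0 m + ind (c = y m) := fun c => by
      unfold num; rw [sum_Ico_succ_top (Nat.zero_le m)]
    rw [sum_range_succ, ih, hs, hs]
    cases hy : y m <;> simp [ind, sum_range_succ] <;> ring

/-- agreement of the code with the page word, at or right of a gap `g ≤ k`, when `t` letters to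
the right agree with the present one -/
def agree (k g i t : ℤ) : ℤ :=
  (k - |i - k|) - pp (g - pp (i - k)) + psi (k - g) g t

lemma count_right (k g : ℕ) (x : ℕ → Bool) (i : ℕ) (hi : g ≤ i) (hn : i < 2 * k + 1) :
    cz k g x i = if x i then agree k (min g k : ℕ) i (num x (x i) (i + 1) (2 * k + 1))
      else (k - |(i : ℤ) - k|) - agree k (min g k : ℕ) i (num x (x i) (i + 1) (2 * k + 1)) := by
  have hp := num_pair x (i + 1) (2 * k + 1)
  unfold cz count agree pp psi proj
  simp only [cnt_eq]
  rw [abs_eq_max_neg]
  rcases le_or_gt g k with hg | hg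
  · rw [if_pos hg, if_neg (by omega), Nat.min_eq_left hg]
    generalize hR' : num x true (i + 1) (2 * k + 1) = R1 at hp ⊢
    generalize hR : num x false (i + 1) (2 * k + 1) = R0 at hp ⊢
    rcases le_or_gt i k with hik | hik
    · rw [show tent k i = i by unfold tent; omega, Nat.sub_eq_zero_of_le hik, Nat.sub_zero,
        Nat.min_eq_left hi]
      cases hx : x i <;>
        simp only [if_true, if_false, Bool.false_eq_true, Bool.toNat_true, Bool.toNat_false,
          one_mul, zero_mul, hR, hR'] <;> omega
    · rw [show tent k i = 2 * k - i by unfold tent; omega, Nat.sub_eq_zero_of_le hik.le,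
        Nat.sub_zero, Nat.min_eq_left (show g - (i - k) ≤ 2 * k - i by omega)]
      cases hx : x i <;>
        simp only [if_true, if_false, Bool.false_eq_true, Bool.toNat_true, Bool.toNat_false,
          one_mul, zero_mul, hR, hR'] <;> omega
  · rw [if_neg (by omega), if_pos hi, Nat.min_eq_right hg.le]
    cases hx : x i <;> simp <;> omega

lemma count_left_low (k g : ℕ) (x : ℕ → Bool) (i : ℕ) (hg : g ≤ k) (hi : i < g) :
    cz k g x i = (num x true 0 i : ℤ) := by
  unfold cz count
  rw [if_pos hg, if_pos hi, cnt_eq]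

/-- left of a high gap and not beyond the middle -/
lemma count_left_high (k g : ℕ) (x : ℕ → Bool) (i : ℕ) (hg : k < g) (hgn : g ≤ 2 * k + 1)
    (hi : i < g) (hik : i ≤ k) :
    cz k g x i
      = if x i then max (min (i : ℤ) ((g : ℤ) - k - 1)) (num x true 0 i : ℤ)
        else i - max (min (i : ℤ) ((g : ℤ) - k - 1)) (num x false 0 i : ℤ) := by
  have hp := num_pair x 0 i
  unfold cz count proj
  simp only [cnt_eq]
  rw [if_neg (by omega), if_neg (by omega)]
  unfold tent
  cases hx : x i <;> simp <;> omega

end P040.Cut
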