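import Vale.Agent.P040.Cut.Assembly
import Vale.Agent.P040.Cut.Balance
import Vale.Agent.P040.Cut.BalanceLow

/-!
# P040: Zarankiewicz's bound for every two-page drawing of `K_{m,n}`
-/

open Finset

namespace P040.Cut

open P040.TwoBlock

/-- same-colour pairs between two intervals -/
lemma sum_same (x y : ℕ → Bool) (lo hi p q : ℕ) :
    ∑ i ∈ Ico lo hi, same y (x i) p q
      = (num x true lo hi : ℤ) * num y true p q + (num x false lo hi : ℤ) * num y false p q := by
  have e : ∀ i ∈ Ico lo hi, same y (x i) p q
      = (ind (true = x i) : ℤ) * num y true p q + (ind (false = x i) : ℤ) * num y false p q := by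
    intro i _
    rw [same_eq]
    cases x i <;> simp [ind]
  rw [sum_congr rfl e, sum_add_distrib, ← sum_mul, ← sum_mul]
  unfold num
  push_cast
  rfl

/-- the part left of both gaps -/
lemma left_bound (k g h : ℕ) (x y : ℕ → Bool) (hg : g ≤ k) (hgh : g ≤ h) (hn : h ≤ 2 * k + 1) :
    2 * psiSums k (min (2 * k + 1 - h) k) (fun c => num y c 0 g)
      + ((g : ℤ) * ((g : ℤ) - 1)
        - tri2 ((g : ℤ) - 1 - ((k : ℤ) - (min (2 * k + 1 - h) k : ℕ))))
      ≤ 2 * leftPart k g h x y := by
  have hr := right_high k (2 * k + 1 - h) (2 * k + 1 - g) (rev k y) (rev k x) (by omega) (by omega)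
    (by omega)
  have e : (fun c => num (rev k y) c (2 * k + 1 - g) (2 * k + 1)) = fun c => num y c 0 g := by
    funext c
    rw [num_rev k y c (by omega) le_rfl]
    congr 1 <;> omega
  rw [e, show ((2 * k + 1 - g : ℕ) : ℤ) = 2 * (k : ℤ) + 1 - g by omega,
    show (2 * (k : ℤ) + 1 - (2 * k + 1 - g)) = g by ring,
    show (2 * (k : ℤ) - (2 * k + 1 - g)) = g - 1 by ring] at hr
  exact hr

/-- a block between a low gap and a high gap, up to the middle -/
lemma mid_high_gap (k g h M : ℕ) (x y : ℕ → Bool) (hg : g ≤ k) (hM : g + M ≤ k + 1) (hk : k < h)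
    (hgM : g + M ≤ h) (hn : h ≤ 2 * k + 1) :
    ∑ j ∈ range M, max ((g : ℤ) + j) ((h : ℤ) - k - 1)
      - (∑ r ∈ range (num y true g (g + M)), leftover ((k : ℤ) - g) g
            (fun c => num x c (g + M) (2 * k + 1)) (fun c => num y c 0 g) true r ((h : ℤ) - k - 1)
        + ∑ r ∈ range (num y false g (g + M)), leftover ((k : ℤ) - g) g
            (fun c => num x c (g + M) (2 * k + 1)) (fun c => num y c 0 g) false r ((h : ℤ) - k - 1))
      ≤ midPart k g h g (g + M) x y := by
  refine le_trans (le_of_eq ?_) (mid_block k g h M x y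
    (fun j => min ((g : ℤ) + j) ((h : ℤ) - k - 1)) hg hM ?_)
  · set A : Bool → ℕ := fun c => num x c (g + M) (2 * k + 1) with hA
    set b : Bool → ℕ := fun c => num y c 0 g with hb
    have e := sum_rank (fun c r => leftover ((k : ℤ) - g) g A b c r ((h : ℤ) - k - 1))
      (fun j => y (g + j)) M
    simp only [num_shift, Nat.add_zero] at e
    rw [← e, ← sum_sub_distrib]
    refine sum_congr rfl fun j hj => ?_
    rw [mem_range] at hj
    have hp := num_pair y g (g + j)
    have hb2 := num_pair y 0 g
    have hbc : b (y (g + j)) ≤ g := by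
      simp only [hb]; cases y (g + j) <;> omega
    have hrj : num y (y (g + j)) g (g + j) ≤ j := by cases y (g + j) <;> omega
    generalize num y (y (g + j)) g (g + j) = r at hrj ⊢
    unfold leftover psi
    rw [abs_eq_max_neg, abs_eq_max_neg]
    omega
  · intro j hj
    rw [count_left_high k h y (g + j) hk hn (by omega) (by omega)]
    push_cast
    rfl

theorem total_low (k g h : ℕ) (x y : ℕ → Bool) (hgh : g ≤ h) (hh : h ≤ k) :
    (k * k : ℤ) ≤ pairTotal k g h x y := by
  have R := right_low k g h x y hgh hh
  have L := left_bound k g h x y (hgh.trans hh) hgh (by omega)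
  rw [Nat.min_eq_right (show k ≤ 2 * k + 1 - h by omega)] at L
  have hz : (g : ℤ) * ((g : ℤ) - 1) - tri2 ((g : ℤ) - 1 - ((k : ℤ) - k)) = 0 := by
    rcases Nat.eq_zero_or_pos g with rfl | hg0
    · simp [tri2]
    · rw [tri2_of_nonneg (by omega)]; ring
  have M := mid_block k g h (h - g) x y (fun _ => 0) (hgh.trans hh) (by omega) fun j hj => by
    rw [count_left_low k h y (g + j) hh (by omega)]
    have hp := num_pair y 0 (g + j)
    cases y (g + j) <;> simp only [if_true, if_false, Bool.false_eq_true] <;> omega
  rw [show g + (h - g) = h by omega, sum_sub_distrib] at M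
  have e := sum_rank (fun c r => leftover ((k : ℤ) - g) g (fun c => num x c h (2 * k + 1))
    (fun c => num y c 0 g) c r 0) (fun j => y (g + j)) (h - g)
  simp only [num_shift, Nat.add_zero, show g + (h - g) = h by omega] at e
  have B := balance_low k g h (fun c => num x c h (2 * k + 1)) (fun c => num y c 0 g)
    (fun c => num y c g h) hgh hh (num_pair x h (2 * k + 1)) (num_pair y 0 g) (num_pair y g h)
  beta_reduce at B
  have C : crossPart k g h x y = _ := sum_same x y h (2 * k + 1) 0 g
  unfold pairTotal
  linarith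

theorem total_high (k g h : ℕ) (x y : ℕ → Bool) (hg : g ≤ k) (hh : k < h) (hn : h ≤ 2 * k + 1) :
    (k * k : ℤ) ≤ pairTotal k g h x y := by
  obtain ⟨p, hp⟩ : ∃ p, p = 2 * k + 1 - h := ⟨_, rfl⟩
  have hpk : p ≤ k := by omega
  have cp : (p : ℤ) = 2 * (k : ℤ) + 1 - h := by omega
  have R := right_high k g h x y (by omega) hh hn
  have L := left_bound k g h x y hg (by omega) hn
  rw [← hp, Nat.min_eq_left hpk] at L
  rw [Nat.min_eq_left hg, ← cp, show 2 * (k : ℤ) - h = (p : ℤ) - 1 by omega] at R
  have M1 := mid_high_gap k g h (k + 1 - g) x y hg (by omega) hh (by omega) hn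
  rw [show g + (k + 1 - g) = k + 1 by omega, show (h : ℤ) - k - 1 = (k : ℤ) - p by omega] at M1
  have M2 := mid_high_gap k p (2 * k + 1 - g) (k - p) (rev k y) (rev k x) hpk (by omega) (by omega)
    (by omega) (by omega)
  rw [show p + (k - p) = k by omega,
    show ((2 * k + 1 - g : ℕ) : ℤ) - k - 1 = (k : ℤ) - g by omega] at M2
  have hD := midPart_reflect k g h (k + 1) h x y (by omega) hh le_rfl hn
  rw [← hp, show 2 * k + 1 - (k + 1) = k by omega] at hD
  rw [← hD] at M2
  have hE := midPart_split k g h (k + 1) x y (by omega) hh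
  have C : crossPart k g h x y = _ := sum_same x y h (2 * k + 1) 0 g
  have C' := sum_same x y (k + 1) h g (k + 1)
  have a1 : (fun c => num x c (k + 1) (2 * k + 1))
      = fun c => num x c h (2 * k + 1) + num x c (k + 1) h := by
    funext c; rw [num_add x c (show k + 1 ≤ h by omega) hn, add_comm]
  have a2 : (fun c => num (rev k y) c k (2 * k + 1))
      = fun c => num y c 0 g + num y c g (k + 1) := by
    funext c
    rw [num_rev k y c (by omega) le_rfl, ← num_add y c (Nat.zero_le g) (by omega)]
    congr 1 <;> omega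
  have b2 : (fun c => num (rev k x) c 0 p) = fun c => num x c h (2 * k + 1) := by
    funext c
    rw [num_rev k x c (by omega) (by omega)]
    congr 1 <;> omega
  have u2 : ∀ c, num (rev k x) c p k = num x c (k + 1) h := by
    intro c
    rw [num_rev k x c hpk (by omega)]
    congr 1 <;> omega
  rw [a1] at M1
  rw [a2, b2, u2, u2] at M2
  have B := balance_high k g p (fun c => num x c h (2 * k + 1)) (fun c => num y c 0 g)
    (fun c => num x c (k + 1) h) (fun c => num y c g (k + 1)) hg hpk
    (by rw [num_pair x h (2 * k + 1), hp]) (num_pair y 0 g)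
    (by rw [num_pair x (k + 1) h]; omega) (num_pair y g (k + 1))
  beta_reduce at B
  unfold pairTotal
  linarith

/-- the cut code satisfies the pair inequality -/
theorem pairIneq_cutBit (k : ℕ) : PairIneq k (cutBit k) :=
  pairIneq_of k fun g h x y hg hgh hn => by
    rcases le_or_gt h k with hh | hh
    · exact total_low k g h x y hgh hh
    · exact total_high k g h x y hg hh hn

/-- Zarankiewicz's bound for every two-page drawing of `K_{m,n}`. -/
theorem two_page_bound (m n : ℕ) (pa : Fin m → ℕ) (pb : Fin n → ℕ)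
    (hpa : Function.Injective pa) (hpb : Function.Injective pb) (hdis : ∀ a i, pa a ≠ pb i)
    (page : Fin m → Fin n → Bool) :
    zd m * zd n ≤ crossings pa pb page :=
  main_of_code cutBit pairIneq_cutBit m n pa pb hpa hpb hdis page

end P040.Cut
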