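import Vale.Agent.P040.Cut.Code

/-!
# P040: the pieces of the pair inequality
-/

open Finset

namespace P040.Cut

open P040.TwoBlock

/-- letters equal to `c` in `[a, b)` -/
def same (y : ℕ → Bool) (c : Bool) (a b : ℕ) : ℤ := ∑ j ∈ Ico a b, (ind (c = y j) : ℤ)

/-- number of set bits, as an integer -/
def cz (k g : ℕ) (x : ℕ → Bool) (i : ℕ) : ℤ := (count k g x i : ℤ)

/-- reversed word -/
def rev (k : ℕ) (x : ℕ → Bool) (i : ℕ) : Bool := x (2 * k - i)

/-- part right of both vertices -/
def rightPart (k g h : ℕ) (x y : ℕ → Bool) : ℤ :=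
  ∑ i ∈ Ico h (2 * k + 1), (same y (x i) (i + 1) (2 * k + 1) + |cz k g x i - cz k h y i|)

/-- part left of both vertices -/
def leftPart (k g h : ℕ) (x y : ℕ → Bool) : ℤ :=
  rightPart k (2 * k + 1 - h) (2 * k + 1 - g) (rev k y) (rev k x)

/-- pairs between the two outer parts -/
def crossPart (k g h : ℕ) (x y : ℕ → Bool) : ℤ :=
  ∑ i ∈ Ico h (2 * k + 1), same y (x i) 0 g

/-- part of the middle lying in `[lo, hi)` -/
def midPart (k g h lo hi : ℕ) (x y : ℕ → Bool) : ℤ :=
  ∑ i ∈ Ico lo hi, (same y (x i) lo i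
    + min (cz k g x i + cz k h y i) (2 * (tent k i : ℤ) - cz k g x i - cz k h y i))

/-- everything that has to be at least `k²` -/
def pairTotal (k g h : ℕ) (x y : ℕ → Bool) : ℤ :=
  rightPart k g h x y + leftPart k g h x y + crossPart k g h x y + midPart k g h g h x y

end P040.Cut
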