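import Vale.Agent.P040.TwoBlock.Main

/-!
# P040: from a cut code to the crossing bound, arbitrary vertex order

A vertex in gap `g` with page word `x` gets bits `bit g x i l`, `l < tent k i`. If two vertices
always satisfy `k² ≤ crossings + differing bits`, then every two-page drawing of `K_{m,n}` has at
least `d_m d_n` crossings.
-/

open Finset

namespace P040.Cut

open P040.TwoBlock

/-- the pairs of edges interleave, first vertex in gap `g`, second in gap `g' ≥ g` to its right -/
def LinRel (g g' i j : ℕ) : Prop :=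
  (g ≤ j ∧ j < i ∧ i < g') ∨ (g' ≤ i ∧ i < j) ∨ (i < j ∧ j < g) ∨ (g' ≤ i ∧ j < g)

instance (g g' i j : ℕ) : Decidable (LinRel g g' i j) := by unfold LinRel; infer_instance

/-- same-page interleaving pairs of edges at the two vertices -/
def linCount (n g g' : ℕ) (x y : ℕ → Bool) : ℕ :=
  ∑ i ∈ range n, ∑ j ∈ range n, ind (x i = y j ∧ LinRel g g' i j)

/-- number of differing code bits -/
def bitDist (k : ℕ) (u v : ℕ → ℕ → Bool) : ℕ :=
  ∑ i ∈ range (2 * k + 1), ∑ l ∈ range (tent k i), ind (u i l ≠ v i l)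

/-- the pair inequality for a code -/
def PairIneq (k : ℕ) (bit : ℕ → (ℕ → Bool) → ℕ → ℕ → Bool) : Prop :=
  ∀ g g', g ≤ g' → g' ≤ 2 * k + 1 → ∀ x y : ℕ → Bool,
    k * k ≤ linCount (2 * k + 1) g g' x y + bitDist k (bit g x) (bit g' y)

lemma bitDist_comm (k : ℕ) (u v : ℕ → ℕ → Bool) : bitDist k u v = bitDist k v u := by
  unfold bitDist
  refine sum_congr rfl fun i _ => sum_congr rfl fun l _ => ?_
  cases u i l <;> cases v i l <;> rfl

lemma cross_linRel (n : ℕ) (q : ℕ → ℕ) (hq : ∀ a b, a < b → b < n → q a < q b)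
    (p g p' g' : ℕ) (hg : IsGap n q p g) (hg' : IsGap n q p' g') (hp : p < p')
    (i j : ℕ) (hi : i < n) (hj : j < n) (hr : LinRel g g' i j) :
    Cross p (q i) p' (q j) := by
  have gm := gap_mono hg hg'
  have o1 := hg.2 i hi
  have o2 := hg.2 j hj
  have o3 := hg'.2 i hi
  have o4 := hg'.2 j hj
  have o5 := mono_or hq hi hj
  unfold LinRel at hr
  unfold Cross Before
  omega

lemma linCount_le (n : ℕ) (q : ℕ → ℕ) (hq : ∀ a b, a < b → b < n → q a < q b)
    (p g p' g' : ℕ) (hg : IsGap n q p g) (hg' : IsGap n q p' g') (hp : p < p')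
    (x y : ℕ → Bool) : linCount n g g' x y ≤ pairCr n q p p' x y := by
  unfold linCount pairCr
  refine sum_le_sum fun i hi => sum_le_sum fun j hj => ?_
  rw [mem_range] at hi hj
  unfold ind
  split_ifs with h1 h2 <;> try omega
  exact absurd ⟨h1.1, cross_linRel n q hq p g p' g' hg hg' hp i j hi hj h1.2⟩ h2

lemma pair_bits (k : ℕ) (bit : ℕ → (ℕ → Bool) → ℕ → ℕ → Bool) (hbit : PairIneq k bit)
    (q : ℕ → ℕ) (hq : ∀ a b, a < b → b < 2 * k + 1 → q a < q b)
    (p g p' g' : ℕ) (hg : IsGap (2 * k + 1) q p g) (hg' : IsGap (2 * k + 1) q p' g')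
    (hne : p ≠ p') (x y : ℕ → Bool) :
    k * k ≤ pairCr (2 * k + 1) q p p' x y + bitDist k (bit g x) (bit g' y) := by
  have gm := gap_mono hg hg'
  rcases lt_or_gt_of_ne hne with hp | hp
  · exact le_trans (hbit g g' (by omega) hg'.1 x y)
      (Nat.add_le_add_right (linCount_le _ q hq p g p' g' hg hg' hp x y) _)
  · rw [pairCr_comm, bitDist_comm]
    exact le_trans (hbit g' g (by omega) hg.1 y x)
      (Nat.add_le_add_right (linCount_le _ q hq p' g' p g hg' hg hp y x) _)

lemma sum_bitDist_le {m : ℕ} (k : ℕ) (u : Fin m → ℕ → ℕ → Bool) :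
    ∑ a, ∑ b, bitDist k (u a) (u b) ≤ k * k * (2 * (m ^ 2 / 4)) := by
  unfold bitDist
  calc ∑ a, ∑ b, ∑ i ∈ range (2 * k + 1), ∑ l ∈ range (tent k i), ind (u a i l ≠ u b i l)
      = ∑ i ∈ range (2 * k + 1), ∑ l ∈ range (tent k i),
          ∑ a, ∑ b, ind (u a i l ≠ u b i l) := by
        rw [sum_congr rfl fun a _ => sum_comm (s := (univ : Finset (Fin m))), sum_comm]
        refine sum_congr rfl fun i _ => ?_
        rw [sum_congr rfl fun a _ => sum_comm (s := (univ : Finset (Fin m))), sum_comm]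
    _ ≤ ∑ i ∈ range (2 * k + 1), ∑ _l ∈ range (tent k i), 2 * (m ^ 2 / 4) := by
        refine sum_le_sum fun i _ => sum_le_sum fun l _ => ?_
        have := bool_sq_bound (univ : Finset (Fin m)) (fun a => u a i l)
        simpa using this
    _ = k * k * (2 * (m ^ 2 / 4)) := by
        simp only [sum_const, card_range, smul_eq_mul]
        rw [← sum_mul, sum_tent]

theorem cut_core (m k : ℕ) (bit : ℕ → (ℕ → Bool) → ℕ → ℕ → Bool) (hbit : PairIneq k bit)
    (P G : Fin m → ℕ) (q : ℕ → ℕ) (hq : ∀ a b, a < b → b < 2 * k + 1 → q a < q b)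
    (hP : Function.Injective P) (hG : ∀ a, IsGap (2 * k + 1) q (P a) (G a))
    (x : Fin m → ℕ → Bool) :
    k * k * (m * m) ≤ (∑ a, ∑ b, pairCr (2 * k + 1) q (P a) (P b) (x a) (x b))
      + k * k * (2 * (m ^ 2 / 4)) + k * k * m := by
  let u : Fin m → ℕ → ℕ → Bool := fun a => bit (G a) (x a)
  have hpair : ∀ a b : Fin m, k * k ≤ pairCr (2 * k + 1) q (P a) (P b) (x a) (x b)
      + bitDist k (u a) (u b) + (if a = b then k * k else 0) := by
    intro a b
    by_cases h : a = b
    · rw [if_pos h]; omega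
    · rw [if_neg h, Nat.add_zero]
      exact pair_bits k bit hbit q hq _ _ _ _ (hG a) (hG b) (fun e => h (hP e)) _ _
  have hdist := sum_bitDist_le k u
  have hsum := sum_le_sum fun a (_ : a ∈ (univ : Finset (Fin m))) =>
    sum_le_sum fun b (_ : b ∈ (univ : Finset (Fin m))) => hpair a b
  simp only [sum_add_distrib, sum_ite_eq, mem_univ, if_true, sum_const, card_univ,
    Fintype.card_fin, smul_eq_mul] at hsum
  calc k * k * (m * m) = m * (m * (k * k)) := by ring
    _ ≤ _ := hsum
    _ ≤ _ := by rw [Nat.mul_comm m (k * k)]; omega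

/-- The odd case. -/
theorem cut_odd (m k : ℕ) (bit : ℕ → (ℕ → Bool) → ℕ → ℕ → Bool) (hbit : PairIneq k bit)
    (pa : Fin m → ℕ) (pb : Fin (2 * k + 1) → ℕ)
    (hpa : Function.Injective pa) (hpb : Function.Injective pb) (hdis : ∀ a i, pa a ≠ pb i)
    (page : Fin m → Fin (2 * k + 1) → Bool) :
    zd m * zd (2 * k + 1) ≤ crossings pa pb page := by
  let e := Tuple.sort pb
  have hmono : StrictMono (pb ∘ e) :=
    (Tuple.monotone_sort pb).strictMono_of_injective (hpb.comp e.injective)
  let q : ℕ → ℕ := fun t => if h : t < 2 * k + 1 then pb (e ⟨t, h⟩) else 0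
  let x : Fin m → ℕ → Bool := fun a t => if h : t < 2 * k + 1 then page a (e ⟨t, h⟩) else false
  let G : Fin m → ℕ := fun a => (univ.filter fun i => pb i < pa a).card
  have hq : ∀ a b, a < b → b < 2 * k + 1 → q a < q b := by
    intro a b hab hb
    simp only [q, dif_pos hb, dif_pos (show a < 2 * k + 1 by omega)]
    exact hmono hab
  have hG : ∀ a, IsGap (2 * k + 1) q (pa a) (G a) := by
    intro a
    have hcard : G a = (univ.filter fun t => pb (e t) < pa a).card := by
      simp only [G, card_filter]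
      exact (Equiv.sum_comp e fun i => if pb i < pa a then 1 else 0).symm
    refine ⟨le_trans (card_le_univ _) (by simp), fun t ht => ?_⟩
    simp only [q, dif_pos ht]
    rcases lt_or_gt_of_ne (hdis a (e ⟨t, ht⟩)) with h | h
    · right
      refine ⟨h, ?_⟩
      rw [hcard]
      calc _ ≤ (Finset.Iio (⟨t, ht⟩ : Fin (2 * k + 1))).card := card_le_card fun u hu => by
            simp only [mem_filter, mem_univ, true_and] at hu
            rw [Finset.mem_Iio]
            exact hmono.lt_iff_lt.1 (hu.trans h)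
        _ = t := Fin.card_Iio _
    · left
      refine ⟨h, ?_⟩
      rw [hcard]
      calc t < t + 1 := Nat.lt_succ_self t
        _ = (Finset.Iic (⟨t, ht⟩ : Fin (2 * k + 1))).card :=
          (Fin.card_Iic (⟨t, ht⟩ : Fin (2 * k + 1))).symm
        _ ≤ _ := card_le_card fun u hu => by
            rw [Finset.mem_Iic] at hu
            simp only [mem_filter, mem_univ, true_and]
            exact lt_of_le_of_lt (hmono.monotone hu) h
  have hsum : ∀ a b, pairCr (2 * k + 1) q (pa a) (pa b) (x a) (x b)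
      = ∑ i, ∑ j, ind (page a i = page b j ∧ Cross (pa a) (pb i) (pa b) (pb j)) := by
    intro a b
    unfold pairCr
    rw [← Equiv.sum_comp e, ← Fin.sum_univ_eq_sum_range]
    refine sum_congr rfl fun i _ => ?_
    rw [← Equiv.sum_comp e, ← Fin.sum_univ_eq_sum_range]
    refine sum_congr rfl fun j _ => ?_
    simp only [q, x, dif_pos i.isLt, dif_pos j.isLt, Fin.eta]
  have h := cut_core m k bit hbit pa G q hq hpa hG x
  simp only [hsum] at h
  rw [← two_mul_crossings] at h
  have hm : m * m = 2 * zd m + 2 * (m ^ 2 / 4) + m := by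
    unfold zd
    rcases Nat.even_or_odd' m with ⟨l, rfl | rfl⟩
    · rcases Nat.eq_zero_or_pos l with rfl | hl
      · simp
      · obtain ⟨l, rfl⟩ : ∃ t, l = t + 1 := ⟨l - 1, by omega⟩
        rw [show 2 * (l + 1) / 2 = l + 1 by omega, show (2 * (l + 1) - 1) / 2 = l by omega,
          show (2 * (l + 1)) ^ 2 / 4 = (l + 1) ^ 2 by
            rw [show (2 * (l + 1)) ^ 2 = 4 * (l + 1) ^ 2 by ring]; omega]
        ring
    · rw [show (2 * l + 1) / 2 = l by omega, show (2 * l + 1 - 1) / 2 = l by omega,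
        show (2 * l + 1) ^ 2 / 4 = l * l + l by
          rw [show (2 * l + 1) ^ 2 = 4 * (l * l + l) + 1 by ring]; omega]
      ring
  have hk2 : zd (2 * k + 1) = k * k := by
    unfold zd
    rw [show (2 * k + 1) / 2 = k by omega, show (2 * k + 1 - 1) / 2 = k by omega]
  rw [hk2]
  rw [hm] at h
  nlinarith

/-- Zarankiewicz's bound for all two-page drawings, given a code for every `k`. -/
theorem main_of_code (bit : ℕ → ℕ → (ℕ → Bool) → ℕ → ℕ → Bool)
    (hbit : ∀ k, PairIneq k (bit k)) (m n : ℕ) (pa : Fin m → ℕ) (pb : Fin n → ℕ)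
    (hpa : Function.Injective pa) (hpb : Function.Injective pb) (hdis : ∀ a i, pa a ≠ pb i)
    (page : Fin m → Fin n → Bool) :
    zd m * zd n ≤ crossings pa pb page := by
  rcases Nat.even_or_odd' n with ⟨k, rfl | rfl⟩
  · rcases lt_or_ge k 2 with hk | hk
    · have : zd (2 * k) = 0 := by interval_cases k <;> decide
      simp [this]
    · obtain ⟨l, rfl⟩ : ∃ l, k = l + 2 := ⟨k - 2, by omega⟩
      have hdel : ∀ i : Fin (2 * (l + 1) + 1 + 1), zd m * zd (2 * (l + 1) + 1)
          ≤ crossings pa (pb ∘ i.succAbove) (fun a j => page a (i.succAbove j)) := fun i =>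
        cut_odd m (l + 1) _ (hbit (l + 1)) pa _ hpa (hpb.comp Fin.succAbove_right_injective)
          (fun a j => hdis a _) _
      have h := sum_le_sum fun i (_ : i ∈ (univ : Finset (Fin (2 * (l + 1) + 1 + 1)))) => hdel i
      rw [sum_delete, sum_const, card_univ, Fintype.card_fin, smul_eq_mul] at h
      have e1 : zd (2 * (l + 2)) = (l + 2) * (l + 1) := by
        unfold zd
        rw [show 2 * (l + 2) / 2 = l + 2 by omega, show (2 * (l + 2) - 1) / 2 = l + 1 by omega]
      have e2 : zd (2 * (l + 1) + 1) = (l + 1) * (l + 1) := by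
        unfold zd
        rw [show (2 * (l + 1) + 1) / 2 = l + 1 by omega,
          show (2 * (l + 1) + 1 - 1) / 2 = l + 1 by omega]
      rw [e2, show 2 * (l + 1) + 1 - 1 = 2 * (l + 1) by omega] at h
      rw [e1]
      refine Nat.le_of_mul_le_mul_left ?_ (show 0 < 2 * (l + 1) by omega)
      refine le_trans (le_of_eq ?_) h
      ring
  · exact cut_odd m k _ (hbit k) pa pb hpa hpb hdis page

end P040.Cut
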