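import Vale.Agent.P040.Cut.Local

/-!
# P040: the part outside both vertices
-/

open Finset

namespace P040.Cut

open P040.TwoBlock

/-- what a letter right of both gaps pays by itself -/
def phi (k h t : ℤ) : ℤ := max 0 (min t (min (k - h) (2 * k - h - t)))

/-- difference of the two widths -/
def width (k g h i : ℤ) : ℤ := pp (h - pp (i - k)) - pp (g - pp (i - k))

section Step

variable {k g h i a b : ℤ} (hg : 0 ≤ g) (hgh : g ≤ h) (hk : h ≤ k) (hi : h ≤ i) (hn : i ≤ 2 * k)
  (ha : 0 ≤ a) (ha' : a ≤ 2 * k - i) (hb : 0 ≤ b) (hb' : b ≤ 2 * k - i)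

include hg hgh hk hi hn ha ha' hb hb'


omit hi hn ha in
lemma step_eq : phi k h b + psi (k - g) g a + width k g h i
    ≤ b + |agree k g i a - agree k h i b| := by
  refine le_trans ?_ (add_le_add le_rfl (le_abs_self _))
  unfold phi width agree pp psi
  rw [abs_eq_max_neg]
  omega

omit ha hb in
lemma step_ne : phi k h b + psi (k - g) g a + width k g h i
    ≤ (2 * k - i - b) + |agree k g i a - ((k - |i - k|) - agree k h i b)| := by
  refine le_trans ?_ (add_le_add le_rfl (le_abs_self _))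
  unfold phi width agree pp psi
  rw [abs_eq_max_neg]
  omega

end Step

/-- two sums of `psi` -/
def psiSums (k g : ℕ) (a : Bool → ℕ) : ℤ :=
  ∑ t ∈ range (a true), psi ((k : ℤ) - g) g t + ∑ t ∈ range (a false), psi ((k : ℤ) - g) g t

lemma right_raw (k g h : ℕ) (x y : ℕ → Bool) (hgh : g ≤ h) (hh : h ≤ 2 * k + 1) :
    psiSums k (min g k) (fun c => num x c h (2 * k + 1))
      + (∑ t ∈ range (num y true h (2 * k + 1)), phi k (min h k : ℕ) t
        + ∑ t ∈ range (num y false h (2 * k + 1)), phi k (min h k : ℕ) t)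
      + ∑ i ∈ Ico h (2 * k + 1), width k (min g k : ℕ) (min h k : ℕ) i
      ≤ rightPart k g h x y := by
  unfold psiSums rightPart
  rw [← sum_class (fun t => psi ((k : ℤ) - (min g k : ℕ)) (min g k : ℕ) t) x hh,
    ← sum_class (fun t => phi k (min h k : ℕ) t) y hh, ← sum_add_distrib, ← sum_add_distrib]
  refine sum_le_sum fun i hi => ?_
  rw [mem_Ico] at hi
  have hx := num_pair x (i + 1) (2 * k + 1)
  have hy := num_pair y (i + 1) (2 * k + 1)
  rw [same_eq, count_right k g x i (by omega) hi.2, count_right k h y i hi.1 hi.2]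
  have A : ∀ c, (num x c (i + 1) (2 * k + 1) : ℤ) ≤ 2 * (k : ℤ) - i := fun c => by
    cases c <;> omega
  have B : ∀ c, (num y c (i + 1) (2 * k + 1) : ℤ) ≤ 2 * (k : ℤ) - i := fun c => by
    cases c <;> omega
  have E := step_eq (k := (k : ℤ)) (g := (min g k : ℕ)) (h := (min h k : ℕ)) (i := (i : ℤ))
    (a := (num x (x i) (i + 1) (2 * k + 1) : ℤ)) (b := (num y (y i) (i + 1) (2 * k + 1) : ℤ))
    (by omega) (by omega) (by omega) (A _) (by omega) (B _)
  have N := step_ne (k := (k : ℤ)) (g := (min g k : ℕ)) (h := (min h k : ℕ)) (i := (i : ℤ))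
    (a := (num x (x i) (i + 1) (2 * k + 1) : ℤ)) (b := (num y (y i) (i + 1) (2 * k + 1) : ℤ))
    (by omega) (by omega) (by omega) (by omega) (by omega) (A _) (B _)
  revert E N
  cases hxi : x i <;> cases hyi : y i <;> simp only [if_true, if_false, Bool.false_eq_true] <;>
    intro E N
  all_goals rw [abs_eq_max_neg] at E N ⊢
  all_goals omega

lemma two_psi (k g a : ℕ) (hg : g ≤ k) (ha : a ≤ k) :
    2 * ∑ t ∈ range a, psi ((k : ℤ) - g) g t = tri2 ((a : ℤ) - ((k : ℤ) - g) - 1) := by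
  rw [sum_congr rfl (g := fun t : ℕ => max 0 (-((k : ℤ) - g) + (t : ℤ))) fun t ht => by
    rw [mem_range] at ht; unfold psi; omega]
  rw [sum_pos_up, tri2_of_nonpos (m := -((k : ℤ) - g) - 1) (by omega)]
  ring_nf

/-- both gaps in the first half -/
theorem right_low (k g h : ℕ) (x y : ℕ → Bool) (hgh : g ≤ h) (hh : h ≤ k) :
    2 * psiSums k g (fun c => num x c h (2 * k + 1)) + 2 * (((k : ℤ) - h) * k)
      + 2 * ((h : ℤ) - g) * ((k : ℤ) + 1) - ((h : ℤ) - g) * ((h : ℤ) - g + 1)
      ≤ 2 * rightPart k g h x y := by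
  have hr := right_raw k g h x y hgh (by omega)
  rw [Nat.min_eq_left (hgh.trans hh), Nat.min_eq_left hh] at hr
  set p1 := num y true h (2 * k + 1) with hp1
  set p0 := num y false h (2 * k + 1) with hp0
  have hp := num_pair y h (2 * k + 1)
  rw [← hp1, ← hp0] at hp
  have e1 : ∑ t ∈ range p1, phi k h t + ∑ t ∈ range p0, phi k h t
      = ∑ t ∈ range (2 * k + 1 - h), phi k h t := by
    rw [← hp, sum_range_add]
    congr 1
    rw [← sum_range_reflect (fun t : ℕ => phi k h t) p0]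
    refine sum_congr rfl fun t ht => ?_
    rw [mem_range] at ht
    unfold phi
    omega
  have e2 : 2 * ∑ t ∈ range (2 * k + 1 - h), phi k h t = 2 * (((k : ℤ) - h) * k) := by
    rw [sum_congr rfl (g := fun t : ℕ => (t : ℤ) - max 0 (-((k : ℤ) - h) + t)
      - max 0 (-(k : ℤ) + t)) fun t ht => by rw [mem_range] at ht; unfold phi; omega]
    simp only [sum_sub_distrib, mul_sub]
    rw [two_mul_sum_range, sum_pos_up, sum_pos_up,
      tri2_of_nonpos (m := -((k : ℤ) - h) - 1) (by omega),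
      tri2_of_nonpos (m := -(k : ℤ) - 1) (by omega),
      tri2_of_nonneg (m := -((k : ℤ) - h) + ((2 * k + 1 - h : ℕ) : ℤ) - 1) (by omega),
      tri2_of_nonneg (m := -(k : ℤ) + ((2 * k + 1 - h : ℕ) : ℤ) - 1) (by omega),
      show ((2 * k + 1 - h : ℕ) : ℤ) = 2 * (k : ℤ) + 1 - h by omega]
    ring
  have e3 : 2 * ∑ i ∈ Ico h (2 * k + 1), width k g h i
      = 2 * ((h : ℤ) - g) * ((k : ℤ) + 1) - ((h : ℤ) - g) * ((h : ℤ) - g + 1) := by
    rw [sum_Ico_eq_sum_range, show 2 * k + 1 - h = k + 1 - h + k by omega, sum_range_add,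
      sum_congr rfl (g := fun _ : ℕ => (h : ℤ) - g) (fun j hj => by
        rw [mem_range] at hj; unfold width pp; push_cast; omega),
      sum_congr rfl (s₁ := range k) (g := fun j : ℕ => max 0 ((h : ℤ) - 1 - j)
        - max 0 ((g : ℤ) - 1 - j)) (fun j hj => by unfold width pp; push_cast; omega),
      mul_add]
    simp only [sum_sub_distrib (f := fun j : ℕ => max 0 ((h : ℤ) - 1 - j)), mul_sub, sum_pos_down]
    rw [tri2_of_nonpos (m := (h : ℤ) - 1 - k) (by omega),
      tri2_of_nonpos (m := (g : ℤ) - 1 - k) (by omega)]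
    have t1 : ∀ a : ℕ, tri2 ((a : ℤ) - 1) = ((a : ℤ) - 1) * a := by
      intro a
      rcases Nat.eq_zero_or_pos a with rfl | ha
      · simp [tri2]
      · rw [tri2_of_nonneg (by omega)]; ring
    rw [t1, t1, sum_const, card_range, nsmul_eq_mul, show ((k + 1 - h : ℕ) : ℤ) = k + 1 - h by omega]
    ring
  rw [e1] at hr
  linarith

/-- the second gap in the second half -/
theorem right_high (k g h : ℕ) (x y : ℕ → Bool) (hgh : g ≤ h) (hh : k < h) (hn : h ≤ 2 * k + 1) :
    2 * psiSums k (min g k) (fun c => num x c h (2 * k + 1))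
      + ((2 * (k : ℤ) + 1 - h) * (2 * (k : ℤ) - h)
        - tri2 (2 * (k : ℤ) - h - ((k : ℤ) - (min g k : ℕ))))
      ≤ 2 * rightPart k g h x y := by
  have hr := right_raw k g h x y hgh hn
  rw [Nat.min_eq_right hh.le] at hr
  have e0 : ∀ a : ℕ, ∑ t ∈ range a, phi k k t = 0 := fun a =>
    sum_eq_zero fun t _ => by unfold phi; omega
  have e3 : 2 * ∑ i ∈ Ico h (2 * k + 1), width k (min g k : ℕ) k i
      = (2 * (k : ℤ) + 1 - h) * (2 * (k : ℤ) - h)
        - tri2 (2 * (k : ℤ) - h - ((k : ℤ) - (min g k : ℕ))) := by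
    rw [sum_Ico_eq_sum_range, ← sum_range_reflect]
    rw [sum_congr rfl (g := fun j : ℕ => (j : ℤ) - max 0 (-((k : ℤ) - (min g k : ℕ)) + j))
      fun j hj => by rw [mem_range] at hj; unfold width pp; omega]
    rw [sum_sub_distrib, mul_sub, two_mul_sum_range, sum_pos_up,
      tri2_of_nonpos (m := -((k : ℤ) - (min g k : ℕ)) - 1) (by omega),
      show ((2 * k + 1 - h : ℕ) : ℤ) = 2 * (k : ℤ) + 1 - h by omega]
    ring_nf
  rw [e0, e0] at hr
  linarith

end P040.Cut
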